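import Mathlib

/-!
Arithmetic core of the bootstrap for the parity lower bound: abstract predicates `Lam`, `Mu`
stand for the operator norm bounds of product projections and of monomials.
-/

namespace Vale.Agent.N368.Boot

/-- The bootstrap at one fixed depth and one fixed number of qubits. -/
theorem level (Lam : ℕ → ℝ → Prop) (Mu : ℕ → ℕ → ℝ → Prop) (N c l K ρ : ℕ)
    (hLmono : ∀ t a b, Lam t a → a ≤ b → Lam t b)
    (hTop : ∀ t, N < t → Lam t 0)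
    (hB : ∀ (k m t : ℕ) (a b x : ℝ), 1 ≤ k → 1 ≤ m → 0 ≤ a → 0 ≤ b → 0 ≤ x →
      Mu ((l + 2) * m * k) t a → Lam (k ^ 2 * m) b →
      2 ^ (l * ((l + 2) * m * k)) * a + (2 ^ m)⁻¹ + 2 ^ (l * ((l + 2) * m * k)) * b ≤ x ^ 2 →
      Lam t x)
    (hMono : ∀ D s t, 1 ≤ s → K * (c * D + s) ≤ t → Mu D t ((2 ^ s)⁻¹))
    (hl : 1 ≤ l) (hK : 1 ≤ K) (hρ : 1 ≤ ρ) (j : ℕ) :
    ∀ s t, 1 ≤ s → N < s * ρ ^ (j + 1) →
      (4 * K * (c + l + 1) * (l + 2) * (l + 1) ^ 2) ^ j * ρ * s ≤ t → Lam t ((2 ^ s)⁻¹) := by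
  set Λ := 4 * K * (c + l + 1) * (l + 2) * (l + 1) ^ 2 with hΛ
  have hΛ1 : 1 ≤ Λ := by
    rw [hΛ]; exact Nat.one_le_iff_ne_zero.mpr (by positivity)
  induction j with
  | zero =>
    intro s t _ hN ht
    refine hLmono t 0 _ (hTop t ?_) (by positivity)
    simp only [zero_add, pow_one, pow_zero, one_mul] at hN ht
    calc N < s * ρ := hN
      _ = ρ * s := mul_comm _ _
      _ ≤ t := ht
  | succ j ih =>
    intro s t hs hN ht
    set ρj := Λ ^ j * ρ with hρj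
    have hρj1 : ρ ≤ ρj := by
      rw [hρj]; exact Nat.le_mul_of_pos_left _ (by positivity)
    set m := 2 * s + 2 with hm
    set k := (l + 1) ^ 2 * ρj with hk
    have hk1 : ρj ≤ k := by
      rw [hk]; exact Nat.le_mul_of_pos_left _ (by positivity)
    have hk0 : 1 ≤ k := hρ.trans (hρj1.trans hk1)
    have hm0 : 1 ≤ m := by omega
    set D := (l + 2) * m * k with hD
    set s' := l * D + m with hs'
    have hmk : m ≤ m * k := Nat.le_mul_of_pos_right _ hk0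
    have hs'1 : 1 ≤ s' := by omega
    have h1 : Lam (k ^ 2 * m) ((2 ^ s')⁻¹) := by
      refine ih s' _ hs'1 ?_ ?_
      · have e1 : s * ρ ≤ s' := by
          have a1 : s * ρ ≤ m * k := Nat.mul_le_mul (by omega) (hρj1.trans hk1)
          have a2 : m * k ≤ D := by
            rw [hD, mul_assoc]; exact Nat.le_mul_of_pos_left _ (by positivity)
          have a3 : D ≤ l * D := Nat.le_mul_of_pos_left _ hl
          omega
        calc N < s * ρ ^ (j + 1 + 1) := hN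
          _ = (s * ρ) * ρ ^ (j + 1) := by ring
          _ ≤ s' * ρ ^ (j + 1) := Nat.mul_le_mul_right _ e1
      · have e2 : s' ≤ (l + 1) ^ 2 * (m * k) := by
          calc s' = l * ((l + 2) * m * k) + m := rfl
            _ ≤ l * ((l + 2) * m * k) + m * k := Nat.add_le_add_left hmk _
            _ = (l + 1) ^ 2 * (m * k) := by ring
        calc ρj * s' ≤ ρj * ((l + 1) ^ 2 * (m * k)) := Nat.mul_le_mul_left _ e2
          _ = ((l + 1) ^ 2 * ρj) * k * m := by ring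
          _ = k ^ 2 * m := by rw [← hk]; ring
    have h2 : Mu D t ((2 ^ s')⁻¹) := by
      refine hMono D s' t hs'1 (le_trans ?_ ht)
      have e3 : c * D + s' ≤ (c + l + 1) * (l + 2) * (m * k) := by
        have a1 : m * k ≤ (l + 2) * (m * k) := Nat.le_mul_of_pos_left _ (by positivity)
        calc c * D + s' = (c + l) * ((l + 2) * (m * k)) + m := by rw [hs', hD]; ring
          _ ≤ (c + l) * ((l + 2) * (m * k)) + (l + 2) * (m * k) :=
              Nat.add_le_add_left (hmk.trans a1) _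
          _ = (c + l + 1) * (l + 2) * (m * k) := by ring
      have e4 : m * k ≤ 4 * s * k := Nat.mul_le_mul_right _ (by omega)
      calc K * (c * D + s') ≤ K * ((c + l + 1) * (l + 2) * (m * k)) := Nat.mul_le_mul_left _ e3
        _ ≤ K * ((c + l + 1) * (l + 2) * (4 * s * k)) :=
            Nat.mul_le_mul_left _ (Nat.mul_le_mul_left _ e4)
        _ = Λ * ρj * s := by rw [hk, hΛ]; ring
        _ = Λ ^ (j + 1) * ρ * s := by rw [hρj]; ring
    refine hB k m t _ _ _ hk0 hm0 (by positivity) (by positivity) (by positivity) h2 h1 ?_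
    have e5 : (2 : ℝ) ^ (l * D) * (2 ^ s')⁻¹ = (2 ^ m)⁻¹ := by
      rw [hs', pow_add]; field_simp
    rw [← hD, e5, hm]
    have e6 : ((2 : ℝ) ^ (2 * s + 2))⁻¹ = ((2 ^ s)⁻¹) ^ 2 / 4 := by
      rw [pow_add, mul_comm 2 s, pow_mul]; field_simp; norm_num
    rw [e6]
    have : (0 : ℝ) ≤ ((2 ^ s)⁻¹) ^ 2 := by positivity
    linarith

/-- A quartic polynomial is eventually below the exponential. -/
theorem poly_le_pow (A : ℕ) : ∃ a0 : ℕ, ∀ a ≥ a0, A * (a + 1) ^ 4 ≤ 2 ^ a := by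
  have h := tendsto_pow_const_div_const_pow_of_one_lt 4 (show (1 : ℝ) < 2 by norm_num)
  have hpos : (0 : ℝ) < 1 / (16 * (A : ℝ) + 1) := by positivity
  obtain ⟨a0, ha0⟩ := Filter.eventually_atTop.mp (h.eventually (gt_mem_nhds hpos))
  refine ⟨a0 + 1, fun a ha => ?_⟩
  have h1 := ha0 a (by omega)
  have ha1 : (1 : ℝ) ≤ a := by exact_mod_cast (show 1 ≤ a by omega)
  rw [div_lt_div_iff₀ (by positivity) (by positivity), one_mul] at h1
  have h2 : ((a : ℝ) + 1) ^ 4 ≤ (2 * a) ^ 4 :=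
    pow_le_pow_left₀ (by positivity) (by linarith) 4
  have h3 : (A : ℝ) * ((a : ℝ) + 1) ^ 4 ≤ 2 ^ a := by
    have h4 : (0 : ℝ) ≤ (a : ℝ) ^ 4 := by positivity
    calc (A : ℝ) * ((a : ℝ) + 1) ^ 4 ≤ A * (2 * a) ^ 4 :=
          mul_le_mul_of_nonneg_left h2 (by positivity)
      _ = a ^ 4 * (16 * A) := by ring
      _ ≤ a ^ 4 * (16 * A + 1) := mul_le_mul_of_nonneg_left (by linarith) h4
      _ ≤ 2 ^ a := h1.le
  exact_mod_cast h3

section all

variable (Lam : ℕ → ℕ → ℕ → ℝ → Prop) (Mu : ℕ → ℕ → ℕ → ℕ → ℝ → Prop) (c : ℕ)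

/-- From monomial bounds with ratio `2^β` for all exponents to projection bounds, same depth. -/
theorem lam_of_mu (d : ℕ)
    (hLmono : ∀ N d t a b, Lam N d t a → a ≤ b → Lam N d t b)
    (hTop : ∀ N d t, N < t → Lam N d t 0)
    (hB : ∀ (N d l k m t : ℕ) (a b x : ℝ), 2 * N + 5 ≤ 2 ^ l → 1 ≤ k → 1 ≤ m → 0 ≤ a → 0 ≤ b →
      0 ≤ x → Mu N d ((l + 2) * m * k) t a → Lam N d (k ^ 2 * m) b →
      2 ^ (l * ((l + 2) * m * k)) * a + (2 ^ m)⁻¹ + 2 ^ (l * ((l + 2) * m * k)) * b ≤ x ^ 2 →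
      Lam N d t x)
    (hM : ∀ M, ∃ β0, ∀ β ≥ β0, ∀ N ≤ 2 ^ (M * β), ∀ D s t, 1 ≤ s → 2 ^ β * (c * D + s) ≤ t →
      Mu N d D t ((2 ^ s)⁻¹)) :
    ∀ M, ∃ β0, ∀ β ≥ β0, ∀ N ≤ 2 ^ (M * β), ∀ s t, 1 ≤ s → 2 ^ β * s ≤ t →
      Lam N d t ((2 ^ s)⁻¹) := by
  intro M
  set E := 16 * M + 1 with hE
  set M' := 2 * E * M with hM'
  obtain ⟨α1, hα1⟩ := hM M'
  obtain ⟨α2, hα2⟩ := poly_le_pow (4 * (c + M' + 5) ^ 4)
  refine ⟨(α1 + α2 + 1) * E, fun β hβ N hN s t hs ht => ?_⟩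
  have hE0 : 0 < E := by omega
  set α := β / E with hα
  have hαge : α1 + α2 + 1 ≤ α := (Nat.le_div_iff_mul_le hE0).mpr hβ
  have hαE : α * E ≤ β := Nat.div_mul_le_self _ _
  have hβlt : β ≤ 2 * E * α := by
    have h1 : β < E * (α + 1) := Nat.lt_mul_div_succ β hE0
    have h2 : E * (α + 1) ≤ E * (2 * α) := Nat.mul_le_mul_left _ (by omega)
    calc β ≤ E * (2 * α) := (h1.trans_le h2).le
      _ = 2 * E * α := by ring
  have hN' : N ≤ 2 ^ (M' * α) := by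
    refine hN.trans (Nat.pow_le_pow_right (by norm_num) ?_)
    calc M * β ≤ M * (2 * E * α) := Nat.mul_le_mul_left _ hβlt
      _ = M' * α := by rw [hM']; ring
  set l := M' * α + 3 with hl
  have hNl : 2 * N + 5 ≤ 2 ^ l := by
    have h1 : 1 ≤ 2 ^ (M' * α) := Nat.one_le_two_pow
    rw [hl, pow_add]; omega
  have hpoly : 4 * (c + l + 1) * (l + 2) * (l + 1) ^ 2 ≤ 2 ^ α := by
    refine le_trans ?_ (hα2 α (by omega))
    have h0 : c + l + 2 ≤ (c + M' + 5) * (α + 1) := by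
      rw [hl]; nlinarith [Nat.zero_le (c * α), Nat.zero_le α, Nat.zero_le M']
    set X := (c + M' + 5) * (α + 1) with hX
    have h1 : c + l + 1 ≤ X := by omega
    have h2 : l + 2 ≤ X := by omega
    have h3 : l + 1 ≤ X := by omega
    calc 4 * (c + l + 1) * (l + 2) * (l + 1) ^ 2 ≤ 4 * X * X * X ^ 2 := by gcongr
      _ = 4 * (c + M' + 5) ^ 4 * (α + 1) ^ 4 := by rw [hX]; ring
  refine level (Lam N d) (Mu N d) N c l (2 ^ α) (2 ^ ((8 * M + 1) * α))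
    (hLmono N d) (hTop N d) (fun k m t a b x => hB N d l k m t a b x hNl)
    (hα1 α (by omega) N hN') (by omega) Nat.one_le_two_pow Nat.one_le_two_pow (4 * M)
    s t hs ?_ (le_trans ?_ ht)
  · have h1 : 2 ^ (M' * α) < 2 ^ ((8 * M + 1) * α * (4 * M + 1)) := by
      refine Nat.pow_lt_pow_right (by norm_num) ?_
      have h2 : M' < (8 * M + 1) * (4 * M + 1) := by
        rw [hM', hE]; nlinarith [Nat.zero_le M]
      calc M' * α < (8 * M + 1) * (4 * M + 1) * α := Nat.mul_lt_mul_of_pos_right h2 (by omega)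
        _ = (8 * M + 1) * α * (4 * M + 1) := by ring
    calc N < 2 ^ ((8 * M + 1) * α * (4 * M + 1)) := hN'.trans_lt h1
      _ = 1 * (2 ^ ((8 * M + 1) * α)) ^ (4 * M + 1) := by rw [one_mul, ← pow_mul]
      _ ≤ s * (2 ^ ((8 * M + 1) * α)) ^ (4 * M + 1) := Nat.mul_le_mul_right _ hs
  · refine Nat.mul_le_mul_right _ ?_
    have h1 : 4 * 2 ^ α * (c + l + 1) * (l + 2) * (l + 1) ^ 2 ≤ 2 ^ (2 * α) := by
      calc 4 * 2 ^ α * (c + l + 1) * (l + 2) * (l + 1) ^ 2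
          = 2 ^ α * (4 * (c + l + 1) * (l + 2) * (l + 1) ^ 2) := by ring
        _ ≤ 2 ^ α * 2 ^ α := Nat.mul_le_mul_left _ hpoly
        _ = 2 ^ (2 * α) := by rw [← pow_add]; ring_nf
    calc (4 * 2 ^ α * (c + l + 1) * (l + 2) * (l + 1) ^ 2) ^ (4 * M) * 2 ^ ((8 * M + 1) * α)
        ≤ (2 ^ (2 * α)) ^ (4 * M) * 2 ^ ((8 * M + 1) * α) :=
          Nat.mul_le_mul_right _ (Nat.pow_le_pow_left h1 _)
      _ = 2 ^ (α * E) := by rw [← pow_mul, ← pow_add, hE]; ring_nf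
      _ ≤ 2 ^ β := Nat.pow_le_pow_right (by norm_num) hαE

/-- Induction on the depth: ratio `2^β` works for at most `2^(M β)` qubits, `β` large. -/
theorem lam_all
    (hLmono : ∀ N d t a b, Lam N d t a → a ≤ b → Lam N d t b)
    (hMmono : ∀ N d D t a b, Mu N d D t a → a ≤ b → Mu N d D t b)
    (hTop : ∀ N d t, N < t → Lam N d t 0)
    (hMu0 : ∀ N D t, D < t → Mu N 0 D t 0)
    (hMuS : ∀ N d D t (b : ℝ), 1 ≤ t → 0 ≤ b → Lam N d t b → Mu N (d + 1) D t (2 ^ (c * D) * b))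
    (hB : ∀ (N d l k m t : ℕ) (a b x : ℝ), 2 * N + 5 ≤ 2 ^ l → 1 ≤ k → 1 ≤ m → 0 ≤ a → 0 ≤ b →
      0 ≤ x → Mu N d ((l + 2) * m * k) t a → Lam N d (k ^ 2 * m) b →
      2 ^ (l * ((l + 2) * m * k)) * a + (2 ^ m)⁻¹ + 2 ^ (l * ((l + 2) * m * k)) * b ≤ x ^ 2 →
      Lam N d t x)
    (hc : 1 ≤ c) (d : ℕ) :
    ∀ M, ∃ β0, ∀ β ≥ β0, ∀ N ≤ 2 ^ (M * β), ∀ s t, 1 ≤ s → 2 ^ β * s ≤ t →
      Lam N d t ((2 ^ s)⁻¹) := by
  induction d with
  | zero =>
    refine lam_of_mu Lam Mu c 0 hLmono hTop hB fun M => ⟨0, fun β _ N _ D s t hs ht => ?_⟩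
    refine hMmono N 0 D t 0 _ (hMu0 N D t ?_) (by positivity)
    have h1 : D ≤ c * D := Nat.le_mul_of_pos_left _ hc
    have h2 : c * D + s ≤ 2 ^ β * (c * D + s) := Nat.le_mul_of_pos_left _ (by positivity)
    omega
  | succ d ih =>
    refine lam_of_mu Lam Mu c (d + 1) hLmono hTop hB fun M => ?_
    obtain ⟨β0, hβ0⟩ := ih M
    refine ⟨β0, fun β hβ N hN D s t hs ht => ?_⟩
    have h2 : c * D + s ≤ 2 ^ β * (c * D + s) := Nat.le_mul_of_pos_left _ (by positivity)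
    have h1 := hβ0 β hβ N hN (c * D + s) t (by omega) ht
    refine hMmono _ _ _ _ _ _ (hMuS N d D t _ (by omega) (by positivity) h1) (le_of_eq ?_)
    rw [pow_add]; field_simp

/-- Final form: polynomially many qubits, threshold `n`, any fixed accuracy `2^(-s)`. -/
theorem final
    (hLmono : ∀ N d t a b, Lam N d t a → a ≤ b → Lam N d t b)
    (hMmono : ∀ N d D t a b, Mu N d D t a → a ≤ b → Mu N d D t b)
    (hTop : ∀ N d t, N < t → Lam N d t 0)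
    (hMu0 : ∀ N D t, D < t → Mu N 0 D t 0)
    (hMuS : ∀ N d D t (b : ℝ), 1 ≤ t → 0 ≤ b → Lam N d t b → Mu N (d + 1) D t (2 ^ (c * D) * b))
    (hB : ∀ (N d l k m t : ℕ) (a b x : ℝ), 2 * N + 5 ≤ 2 ^ l → 1 ≤ k → 1 ≤ m → 0 ≤ a → 0 ≤ b →
      0 ≤ x → Mu N d ((l + 2) * m * k) t a → Lam N d (k ^ 2 * m) b →
      2 ^ (l * ((l + 2) * m * k)) * a + (2 ^ m)⁻¹ + 2 ^ (l * ((l + 2) * m * k)) * b ≤ x ^ 2 →
      Lam N d t x)
    (hc : 1 ≤ c) (d e s : ℕ) :
    ∃ n0, ∀ n ≥ n0, ∀ N ≤ n ^ e, Lam N d n ((2 ^ s)⁻¹) := by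
  obtain ⟨β0, hβ0⟩ := lam_all Lam Mu c hLmono hMmono hTop hMu0 hMuS hB hc d (4 * e)
  refine ⟨2 ^ (2 * (β0 + s + 1)), fun n hn N hN => ?_⟩
  have hn0 : n ≠ 0 := by
    have : 1 ≤ 2 ^ (2 * (β0 + s + 1)) := Nat.one_le_two_pow
    omega
  set L := Nat.log 2 n with hL
  have hLge : 2 * (β0 + s + 1) ≤ L := Nat.le_log_of_pow_le (by norm_num) hn
  have hLle : 2 ^ L ≤ n := Nat.pow_log_le_self 2 hn0
  have hLlt : n < 2 ^ (L + 1) := Nat.lt_pow_succ_log_self (by norm_num) n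
  set β := L / 2 with hβ
  have hs1 : Lam N d n ((2 ^ (s + 1))⁻¹) := by
    refine hβ0 β (by omega) N (hN.trans ?_) (s + 1) n (by omega) ?_
    · calc n ^ e ≤ (2 ^ (L + 1)) ^ e := Nat.pow_le_pow_left hLlt.le _
        _ = 2 ^ ((L + 1) * e) := by rw [← pow_mul]
        _ ≤ 2 ^ (4 * e * β) := by
            refine Nat.pow_le_pow_right (by norm_num) ?_
            calc (L + 1) * e ≤ (4 * β) * e := Nat.mul_le_mul_right _ (by omega)
              _ = 4 * e * β := by ring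
    · have h1 : s + 1 ≤ 2 ^ β := by
        have h2 : s + 1 < 2 ^ (s + 1) := Nat.lt_two_pow_self
        have h3 : 2 ^ (s + 1) ≤ 2 ^ β := Nat.pow_le_pow_right (by norm_num) (by omega)
        omega
      calc 2 ^ β * (s + 1) ≤ 2 ^ β * 2 ^ β := Nat.mul_le_mul_left _ h1
        _ = 2 ^ (β + β) := by rw [pow_add]
        _ ≤ 2 ^ L := Nat.pow_le_pow_right (by norm_num) (by omega)
        _ ≤ n := hLle
  refine hLmono _ _ _ _ _ hs1 ?_
  rw [pow_succ]
  have : (0 : ℝ) < 2 ^ s := by positivity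
  rw [inv_le_inv₀ (by positivity) this]
  linarith

end all

end Vale.Agent.N368.Boot
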