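import Mathlib

/-!
Core definitions for the localization proof that parity is not in QAC0.
Operators are matrices indexed by bit strings `ι → Fin 2`, with the l2 operator norm.
-/

set_option linter.unusedSectionVars false

namespace Vale.Agent.N368

open Matrix Finset
open scoped Matrix.Norms.L2Operator

/-- Operators on the qubits indexed by `ι`. -/
abbrev Op (ι : Type) : Type := Matrix (ι → Fin 2) (ι → Fin 2) ℂ

/-- One-qubit operators. -/
abbrev M2 : Type := Matrix (Fin 2) (Fin 2) ℂ

variable {ι : Type} [Fintype ι] [DecidableEq ι]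

/-- Tensor product of one-qubit operators. -/
noncomputable def tens (M : ι → M2) : Op ι := Matrix.of fun x y => ∏ i, M i (x i) (y i)

/-- Number of ones of `x` inside `S`. -/
def hw (S : Finset ι) (x : ι → Fin 2) : ℕ := (S.filter fun i => x i = 1).card

/-- Projection on strings with no one inside `S`. -/
noncomputable def PP (S : Finset ι) : Op ι := diagonal fun x => if hw S x = 0 then 1 else 0

/-- Projection on strings with at least `t` ones inside `S`. -/
noncomputable def QQ (S : Finset ι) (t : ℕ) : Op ι := diagonal fun x => if t ≤ hw S x then 1 else 0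

/-- Projection on strings that are all one on `I`. -/
noncomputable def EE (I : Finset ι) : Op ι := diagonal fun x => if ∀ i ∈ I, x i = 1 then 1 else 0

/-- The multi-controlled sign gate on `S`. -/
noncomputable def CZ (S : Finset ι) : Op ι := 1 - (2 : ℂ) • EE S

/-- Tensor products of one-qubit unitaries. -/
def IsLoc (L : Op ι) : Prop :=
  ∃ M : ι → M2, (∀ i, M i ∈ Matrix.unitaryGroup (Fin 2) ℂ) ∧ L = tens M

/-- Products of multi-controlled sign gates with pairwise disjoint supports. -/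
def IsLayer (R : Op ι) : Prop :=
  ∃ l : List (Finset ι), l.Pairwise Disjoint ∧ R = (l.map CZ).prod

/-- Circuits with `d` layers of sign gates, interleaved with local unitaries. -/
def Circ : ℕ → Op ι → Prop
  | 0, U => IsLoc U
  | d + 1, U => ∃ V R L : Op ι, Circ d V ∧ IsLayer R ∧ IsLoc L ∧ U = V * R * L

/-- `Lam ι d t c` says `λ_d(t) ≤ c`. -/
def Lam (ι : Type) [Fintype ι] [DecidableEq ι] (d t : ℕ) (c : ℝ) : Prop :=
  ∀ U : Op ι, Circ d U → ∀ S S' : Finset ι, ‖PP S * U * PP S' * star U * QQ S t‖ ≤ c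

/-- `Mu ι d D t c` says `μ_d(D,t) ≤ c`. -/
def Mu (ι : Type) [Fintype ι] [DecidableEq ι] (d D t : ℕ) (c : ℝ) : Prop :=
  ∀ U : Op ι, Circ d U → ∀ S I : Finset ι, I.card ≤ D →
    ‖PP S * U * EE I * star U * QQ S t‖ ≤ c

/-! Basic algebra of `tens`. -/

theorem tens_apply (M : ι → M2) (x y : ι → Fin 2) : tens M x y = ∏ i, M i (x i) (y i) := rfl

theorem tens_mul (M M' : ι → M2) : tens M * tens M' = tens fun i => M i * M' i := by
  ext x y
  simp only [Matrix.mul_apply, tens_apply]
  rw [Finset.prod_univ_sum]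
  simp only [Fintype.piFinset_univ, Finset.prod_mul_distrib]

theorem tens_diagonal (f : ι → Fin 2 → ℂ) :
    tens (fun i => diagonal (f i)) = diagonal fun x => ∏ i, f i (x i) := by
  ext x y
  rw [tens_apply, Matrix.diagonal_apply]
  split_ifs with h
  · subst h; simp
  · obtain ⟨i, hi⟩ := Function.ne_iff.mp h
    exact Finset.prod_eq_zero (Finset.mem_univ i) (Matrix.diagonal_apply_ne _ hi)

theorem tens_one : tens (fun _ : ι => (1 : M2)) = 1 := by
  have := tens_diagonal (ι := ι) (fun _ _ => 1)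
  simpa using this

theorem tens_star (M : ι → M2) : star (tens M) = tens fun i => star (M i) := by
  ext x y
  simp [tens_apply, Matrix.star_apply]

/-- The projection on the one-qubit state `0`. -/
noncomputable def e0 : M2 := diagonal fun a => if a = 0 then 1 else 0

/-- The projection on the one-qubit state `1`. -/
noncomputable def e1 : M2 := diagonal fun a => if a = 1 then 1 else 0

theorem EE_eq_tens (I : Finset ι) : EE I = tens fun i => if i ∈ I then e1 else 1 := by
  have h : (fun i => if i ∈ I then e1 else (1 : M2)) =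
      fun i => diagonal (fun a : Fin 2 => if i ∈ I then (if a = 1 then (1 : ℂ) else 0) else 1) := by
    funext i
    split_ifs with hi
    · rfl
    · simp
  rw [h, tens_diagonal, EE]
  congr 1
  funext x
  split_ifs with hx
  · symm
    refine Finset.prod_eq_one fun i _ => ?_
    split_ifs with h1 h2
    · rfl
    · exact absurd (hx i h1) h2
    · rfl
  · push Not at hx
    obtain ⟨i, hi, hxi⟩ := hx
    symm
    exact Finset.prod_eq_zero (Finset.mem_univ i) (by simp [hi, hxi])

theorem hw_eq_zero_iff (S : Finset ι) (x : ι → Fin 2) : hw S x = 0 ↔ ∀ i ∈ S, x i = 0 := by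
  unfold hw
  rw [Finset.card_eq_zero, Finset.filter_eq_empty_iff]
  refine forall₂_congr fun i _ => ?_
  generalize x i = a
  fin_cases a <;> simp

theorem PP_eq_tens (S : Finset ι) : PP S = tens fun i => if i ∈ S then e0 else 1 := by
  have h : (fun i => if i ∈ S then e0 else (1 : M2)) =
      fun i => diagonal (fun a : Fin 2 => if i ∈ S then (if a = 0 then (1 : ℂ) else 0) else 1) := by
    funext i
    split_ifs with hi
    · rfl
    · simp
  rw [h, tens_diagonal, PP]
  congr 1
  funext x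
  simp only [hw_eq_zero_iff]
  split_ifs with hx
  · symm
    refine Finset.prod_eq_one fun i _ => ?_
    split_ifs with h1 h2
    · rfl
    · exact absurd (hx i h1) h2
    · rfl
  · push Not at hx
    obtain ⟨i, hi, hxi⟩ := hx
    symm
    exact Finset.prod_eq_zero (Finset.mem_univ i) (by simp [hi, hxi])

theorem hw_le_card (S : Finset ι) (x : ι → Fin 2) : hw S x ≤ S.card := Finset.card_filter_le _ _

/-! Unitarity and closure properties of `Circ`. -/

theorem IsLoc.one : IsLoc (1 : Op ι) := ⟨fun _ => 1, fun _ => one_mem _, tens_one.symm⟩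

theorem IsLoc.mul {L L' : Op ι} (h : IsLoc L) (h' : IsLoc L') : IsLoc (L * L') := by
  obtain ⟨M, hM, rfl⟩ := h
  obtain ⟨M', hM', rfl⟩ := h'
  exact ⟨fun i => M i * M' i, fun i => mul_mem (hM i) (hM' i), tens_mul M M'⟩

theorem IsLoc.star {L : Op ι} (h : IsLoc L) : IsLoc (star L) := by
  obtain ⟨M, hM, rfl⟩ := h
  exact ⟨fun i => Star.star (M i), fun i => Unitary.star_mem (hM i), tens_star M⟩

theorem IsLoc.unitary {L : Op ι} (h : IsLoc L) : L ∈ unitary (Op ι) := by
  obtain ⟨M, hM, rfl⟩ := h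
  rw [Unitary.mem_iff, tens_star, tens_mul, tens_mul]
  constructor
  · rw [← tens_one]; congr 1; funext i; exact (Unitary.mem_iff.mp (hM i)).1
  · rw [← tens_one]; congr 1; funext i; exact (Unitary.mem_iff.mp (hM i)).2

theorem EE_mul_EE (I J : Finset ι) : EE I * EE J = EE (I ∪ J) := by
  unfold EE
  rw [diagonal_mul_diagonal]
  congr 1
  funext x
  simp only [Finset.forall_mem_union]
  by_cases h1 : ∀ i ∈ I, x i = 1
  · by_cases h2 : ∀ i ∈ J, x i = 1
    · rw [if_pos h1, if_pos h2, if_pos ⟨h1, h2⟩, mul_one]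
    · rw [if_neg h2, mul_zero, if_neg (fun h => h2 (And.right h))]
  · rw [if_neg h1, zero_mul, if_neg (fun h => h1 (And.left h))]

theorem EE_star (I : Finset ι) : star (EE I) = EE I := by
  unfold EE
  rw [Matrix.star_eq_conjTranspose, diagonal_conjTranspose]
  congr 1
  funext x
  by_cases h1 : ∀ i ∈ I, x i = 1 <;> simp [h1]

theorem PP_star (S : Finset ι) : star (PP S) = PP S := by
  unfold PP
  rw [Matrix.star_eq_conjTranspose, diagonal_conjTranspose]
  congr 1
  funext x
  by_cases h1 : hw S x = 0 <;> simp [h1]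

theorem QQ_star (S : Finset ι) (t : ℕ) : star (QQ S t) = QQ S t := by
  unfold QQ
  rw [Matrix.star_eq_conjTranspose, diagonal_conjTranspose]
  congr 1
  funext x
  by_cases h1 : t ≤ hw S x <;> simp [h1]

theorem PP_mul_PP (S : Finset ι) : PP S * PP S = PP S := by
  unfold PP
  rw [diagonal_mul_diagonal]
  congr 1
  funext x
  by_cases h1 : hw S x = 0 <;> simp [h1]

theorem CZ_star (S : Finset ι) : star (CZ S) = CZ S := by
  unfold CZ
  rw [star_sub, star_one, star_smul, EE_star]
  simp

theorem CZ_mul_CZ (S : Finset ι) : CZ S * CZ S = 1 := by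
  unfold CZ
  simp only [mul_sub, sub_mul, mul_one, one_mul, smul_mul_assoc, mul_smul_comm, EE_mul_EE,
    Finset.union_self, smul_sub, smul_smul]
  module

theorem CZ_comm (S T : Finset ι) : CZ S * CZ T = CZ T * CZ S := by
  unfold CZ
  simp only [mul_sub, sub_mul, mul_one, one_mul, smul_mul_assoc, mul_smul_comm, EE_mul_EE,
    smul_sub, smul_smul, Finset.union_comm T S]
  module

theorem CZ_unitary (S : Finset ι) : CZ S ∈ unitary (Op ι) := by
  rw [Unitary.mem_iff, CZ_star, CZ_mul_CZ]; exact ⟨rfl, rfl⟩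

theorem IsLayer.unitary {R : Op ι} (h : IsLayer R) : R ∈ unitary (Op ι) := by
  obtain ⟨l, -, rfl⟩ := h
  refine list_prod_mem fun x hx => ?_
  obtain ⟨S, -, rfl⟩ := List.mem_map.mp hx
  exact CZ_unitary S

theorem CZ_comm_prod (S : Finset ι) (l : List (Finset ι)) :
    CZ S * (l.map CZ).prod = (l.map CZ).prod * CZ S := by
  induction l with
  | nil => simp
  | cons T l ih =>
    rw [List.map_cons, List.prod_cons, ← mul_assoc, CZ_comm, mul_assoc, ih, mul_assoc]

theorem prod_CZ_star (l : List (Finset ι)) : star (l.map CZ).prod = (l.map CZ).prod := by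
  induction l with
  | nil => simp
  | cons T l ih => rw [List.map_cons, List.prod_cons, star_mul, ih, CZ_star, CZ_comm_prod]

theorem IsLayer.star_eq {R : Op ι} (h : IsLayer R) : star R = R := by
  obtain ⟨l, -, rfl⟩ := h
  exact prod_CZ_star l

theorem IsLayer.one : IsLayer (1 : Op ι) := ⟨[], List.Pairwise.nil, by simp⟩

theorem Circ.unitary : ∀ {d : ℕ} {U : Op ι}, Circ d U → U ∈ unitary (Op ι)
  | 0, _, h => IsLoc.unitary h
  | _ + 1, _, ⟨_, _, _, hV, hR, hL, hU⟩ => by
    rw [hU]; exact mul_mem (mul_mem (Circ.unitary hV) hR.unitary) hL.unitary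

theorem Circ.mul_loc : ∀ {d : ℕ} {U L : Op ι}, Circ d U → IsLoc L → Circ d (U * L)
  | 0, _, _, h, hL => IsLoc.mul h hL
  | _ + 1, _, L', ⟨V, R, L, hV, hR, hL, hU⟩, hL' =>
    ⟨V, R, L * L', hV, hR, hL.mul hL', by rw [hU, mul_assoc (V * R)]⟩

theorem Circ.loc_mul : ∀ {d : ℕ} {U L : Op ι}, Circ d U → IsLoc L → Circ d (L * U)
  | 0, _, _, h, hL => IsLoc.mul hL h
  | _ + 1, _, L', ⟨V, R, L, hV, hR, hL, hU⟩, hL' =>
    ⟨L' * V, R, L, Circ.loc_mul hV hL', hR, hL, by rw [hU]; simp only [mul_assoc]⟩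

/-- Adding a layer on the left. -/
theorem Circ.left : ∀ {d : ℕ} {V R L : Op ι}, Circ d V → IsLayer R → IsLoc L →
    Circ (d + 1) (L * R * V)
  | 0, V, R, L, hV, hR, hL => ⟨L, R, V, hL, hR, hV, rfl⟩
  | _ + 1, _, R', L', ⟨V, R, L, hV, hR, hL, hU⟩, hR', hL' =>
    ⟨L' * R' * V, R, L, Circ.left hV hR' hL', hR, hL, by rw [hU]; simp only [mul_assoc]⟩

theorem Circ.star : ∀ {d : ℕ} {U : Op ι}, Circ d U → Circ d (star U)
  | 0, _, h => IsLoc.star h
  | _ + 1, _, ⟨V, R, L, hV, hR, hL, hU⟩ => by
    rw [hU, star_mul, star_mul, hR.star_eq, ← mul_assoc]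
    exact Circ.left (Circ.star hV) hR hL.star

/-- Padding: a circuit of depth `d` is a circuit of depth `d + 1`. -/
theorem Circ.succ {d : ℕ} {U : Op ι} (h : Circ d U) : Circ (d + 1) U :=
  ⟨U, 1, 1, h, IsLayer.one, IsLoc.one, by simp⟩

theorem Circ.mono {d d' : ℕ} {U : Op ι} (h : Circ d U) (hd : d ≤ d') : Circ d' U := by
  induction hd with
  | refl => exact h
  | step _ ih => exact ih.succ

/-! Norm bounds. -/

theorem norm_diagonal_le (f : (ι → Fin 2) → ℂ) {c : ℝ} (hc : 0 ≤ c) (h : ∀ x, ‖f x‖ ≤ c) :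
    ‖(diagonal f : Op ι)‖ ≤ c := by
  rw [Matrix.l2_opNorm_diagonal]
  exact (pi_norm_le_iff_of_nonneg hc).mpr h

theorem norm_PP_le (S : Finset ι) : ‖PP S‖ ≤ 1 :=
  norm_diagonal_le _ zero_le_one fun x => by split_ifs <;> simp

theorem norm_QQ_le (S : Finset ι) (t : ℕ) : ‖QQ S t‖ ≤ 1 :=
  norm_diagonal_le _ zero_le_one fun x => by split_ifs <;> simp

theorem norm_EE_le (S : Finset ι) : ‖EE S‖ ≤ 1 :=
  norm_diagonal_le _ zero_le_one fun x => by split_ifs <;> simp

theorem norm_unitary_le {U : Op ι} (h : U ∈ unitary (Op ι)) : ‖U‖ ≤ 1 :=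
  (CStarRing.norm_of_mem_unitary h).le

/-- An entry is bounded by the operator norm. -/
theorem norm_entry_le (X : Op ι) (x y : ι → Fin 2) : ‖X x y‖ ≤ ‖X‖ := by
  have h := Matrix.l2_opNorm_mulVec X (EuclideanSpace.single y (1 : ℂ))
  rw [PiLp.norm_single, norm_one, mul_one] at h
  refine le_trans ?_ h
  refine le_trans (le_of_eq ?_) (PiLp.norm_apply_le _ x)
  simp

theorem Lam.of_card_lt {d t : ℕ} (h : Fintype.card ι < t) : Lam ι d t 0 := by
  intro U _ S S'
  have : QQ S t = 0 := by
    unfold QQ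
    rw [← diagonal_zero]
    congr 1
    funext x
    have := hw_le_card S x
    have := Finset.card_le_univ S
    rw [if_neg (by omega)]
  rw [this, mul_zero, norm_zero]

theorem Lam.mono {d t : ℕ} {c c' : ℝ} (h : Lam ι d t c) (hc : c ≤ c') : Lam ι d t c' :=
  fun U hU S S' => (h U hU S S').trans hc

theorem Mu.mono {d D t : ℕ} {c c' : ℝ} (h : Mu ι d D t c) (hc : c ≤ c') : Mu ι d D t c' :=
  fun U hU S I hI => (h U hU S I hI).trans hc

end Vale.Agent.N368
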