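import Mathlib
import Vale.Agent.N368.Defs

/-!
Step E of the parity lower bound: averaging over the Hadamard basis.
-/

namespace Vale.Agent.N368.Parity

open Matrix Finset

/-- The sign `(-1)^b` of a bit. -/
def sgn (b : Fin 2) : ℂ := if b = 0 then 1 else -1

/-- The one-qubit unitary `H X^z`. -/
noncomputable def hz (z : Fin 2) : Matrix (Fin 2) (Fin 2) ℂ :=
  Matrix.of fun a b => (if a = 1 ∧ b ≠ z then -1 else 1) * ((Real.sqrt 2)⁻¹ : ℝ)

lemma sqrt_two_inv_sq : (((Real.sqrt 2)⁻¹ : ℝ) : ℂ) * (((Real.sqrt 2)⁻¹ : ℝ) : ℂ) = 1 / 2 := by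
  rw [← Complex.ofReal_mul, ← mul_inv, Real.mul_self_sqrt (by norm_num)]
  push_cast
  ring

lemma hz_unitary (z : Fin 2) : hz z ∈ Matrix.unitaryGroup (Fin 2) ℂ := by
  rw [Matrix.mem_unitaryGroup_iff]
  have h := sqrt_two_inv_sq
  ext a b
  fin_cases z <;> fin_cases a <;> fin_cases b <;>
    simp only [hz, Matrix.mul_apply, Fin.sum_univ_two, Matrix.star_apply, Matrix.of_apply,
      Matrix.one_apply, star_mul', Complex.star_def, Complex.conj_ofReal] <;>
    simp <;> simp only [← Complex.ofReal_inv] <;> linear_combination 2 * h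

lemma hz_sum (a a' : Fin 2) :
    ∑ z : Fin 2, star (hz z a 0) * hz z a' 1 = if a = a' then sgn a else 0 := by
  have h := sqrt_two_inv_sq
  fin_cases a <;> fin_cases a' <;>
    simp only [hz, sgn, Fin.sum_univ_two, Matrix.of_apply, star_mul', Complex.star_def,
      Complex.conj_ofReal] <;>
    simp <;> simp only [← Complex.ofReal_inv] <;>
    first | linear_combination 2 * h | linear_combination (-2) * h

lemma sgn_add (a b : Fin 2) : sgn (a + b) = sgn a * sgn b := by
  fin_cases a <;> fin_cases b <;> simp [sgn]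

lemma sgn_sum {κ : Type*} (s : Finset κ) (x : κ → Fin 2) :
    sgn (∑ k ∈ s, x k) = ∏ k ∈ s, sgn (x k) := by
  classical
  induction s using Finset.induction_on with
  | empty => simp [sgn]
  | insert a s ha ih => rw [Finset.sum_insert ha, Finset.prod_insert ha, sgn_add, ih]

variable {ι κ : Type*} [Fintype ι] [DecidableEq ι] [Fintype κ] [DecidableEq κ]

/-- Tensor product of one-qubit matrices. -/
def kron (L : ι → Matrix (Fin 2) (Fin 2) ℂ) : Matrix (ι → Fin 2) (ι → Fin 2) ℂ :=
  Matrix.of fun x y => ∏ i, L i (x i) (y i)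

/-- The local unitary `H X^{z i}` on the qubits of `In`, identity elsewhere. -/
noncomputable def loc (In : Finset ι) (z : ι → Fin 2) (i : ι) : Matrix (Fin 2) (Fin 2) ℂ :=
  if i ∈ In then hz (z i) else 1

omit [Fintype ι] in
lemma loc_unitary (In : Finset ι) (z : ι → Fin 2) (i : ι) :
    loc In z i ∈ Matrix.unitaryGroup (Fin 2) ℂ := by
  unfold loc
  split_ifs
  · exact hz_unitary _
  · exact one_mem _

/-- The indicator vector of `In`. -/
def ind (In : Finset ι) : ι → Fin 2 := fun i => if i ∈ In then 1 else 0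

/-- The weight obtained by summing over all Hadamard bases. -/
def wt (In : Finset ι) (x : ι → Fin 2) : ℂ :=
  ∏ i, if i ∈ In then sgn (x i) else if x i = 0 then 2 else 0

lemma sum_kron (In : Finset ι) (x x' : ι → Fin 2) :
    ∑ z : ι → Fin 2, star (kron (loc In z) x 0) * kron (loc In z) x' (ind In)
      = if x = x' then wt In x else 0 := by
  have h1 : ∀ z : ι → Fin 2, star (kron (loc In z) x 0) * kron (loc In z) x' (ind In)
      = ∏ i, (fun (i : ι) (b : Fin 2) =>
          star ((if i ∈ In then hz b else 1 : Matrix (Fin 2) (Fin 2) ℂ) (x i) 0) *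
            (if i ∈ In then hz b else 1 : Matrix (Fin 2) (Fin 2) ℂ) (x' i) (ind In i)) i (z i) := by
    intro z
    simp only [kron, Matrix.of_apply, star_prod, ← Finset.prod_mul_distrib, loc, Pi.zero_apply]
  rw [Finset.sum_congr rfl (fun z _ => h1 z), ← Fintype.piFinset_univ,
    ← Finset.prod_univ_sum (fun _ : ι => (Finset.univ : Finset (Fin 2)))
      (fun (i : ι) (b : Fin 2) =>
          star ((if i ∈ In then hz b else 1 : Matrix (Fin 2) (Fin 2) ℂ) (x i) 0) *
            (if i ∈ In then hz b else 1 : Matrix (Fin 2) (Fin 2) ℂ) (x' i) (ind In i))]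
  have h2 : ∀ i, (∑ b : Fin 2,
      star ((if i ∈ In then hz b else 1 : Matrix (Fin 2) (Fin 2) ℂ) (x i) 0) *
        (if i ∈ In then hz b else 1 : Matrix (Fin 2) (Fin 2) ℂ) (x' i) (ind In i))
      = if x i = x' i then (if i ∈ In then sgn (x i) else if x i = 0 then 2 else 0) else 0 := by
    intro i
    by_cases hi : i ∈ In
    · simp only [hi, if_true, ind]
      exact hz_sum _ _
    · simp only [hi, if_false, ind, Matrix.one_apply]
      generalize x i = a
      generalize x' i = a'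
      fin_cases a <;> fin_cases a' <;> simp
  simp only [h2]
  split_ifs with hx
  · subst hx
    simp [wt]
  · obtain ⟨i, hi⟩ := Function.ne_iff.mp hx
    exact Finset.prod_eq_zero (Finset.mem_univ i) (by simp [hi])

lemma sum_entry (In : Finset ι) (M : Matrix (ι → Fin 2) (ι → Fin 2) ℂ) :
    ∑ z : ι → Fin 2, ((kron (loc In z))ᴴ * M * kron (loc In z)) 0 (ind In)
      = ∑ x, wt In x * M x x := by
  have h1 : ∀ z : ι → Fin 2, ((kron (loc In z))ᴴ * M * kron (loc In z)) 0 (ind In)
      = ∑ x, ∑ x', M x x' * (star (kron (loc In z) x 0) * kron (loc In z) x' (ind In)) := by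
    intro z
    simp only [Matrix.mul_apply, Matrix.conjTranspose_apply, Finset.sum_mul]
    rw [Finset.sum_comm]
    refine Finset.sum_congr rfl fun x _ => Finset.sum_congr rfl fun x' _ => by ring
  simp only [h1]
  rw [Finset.sum_comm]
  refine Finset.sum_congr rfl fun x _ => ?_
  rw [Finset.sum_comm]
  simp only [← Finset.mul_sum, sum_kron]
  simp [mul_comm]

/-- Reindexing the weighted trace by the inputs. -/
lemma sum_wt (e : κ ↪ ι) (enc : (κ → Fin 2) → (ι → Fin 2))
    (h1 : ∀ x k, enc x (e k) = x k) (h0 : ∀ x i, (∀ k, e k ≠ i) → enc x i = 0)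
    (F : (ι → Fin 2) → ℂ) :
    ∑ y, wt (Finset.univ.map e) y * F y
      = 2 ^ (Fintype.card ι - Fintype.card κ) * ∑ x : κ → Fin 2, sgn (∑ k, x k) * F (enc x) := by
  have hinj : Function.Injective enc := by
    intro x x' h
    funext k
    rw [← h1 x k, ← h1 x' k, h]
  have hw : ∀ x, wt (Finset.univ.map e) (enc x)
      = 2 ^ (Fintype.card ι - Fintype.card κ) * sgn (∑ k, x k) := by
    intro x
    unfold wt
    rw [Finset.prod_ite, mul_comm]
    congr 1
    · have : ∀ i ∈ Finset.univ.filter (fun i => ¬ i ∈ Finset.univ.map e),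
          (if enc x i = 0 then (2 : ℂ) else 0) = 2 := by
        intro i hi
        have hi' : ∀ k, e k ≠ i := by simpa using hi
        simp [h0 x i hi']
      rw [Finset.prod_congr rfl this, Finset.prod_const]
      congr 1
      rw [Finset.filter_not, Finset.card_univ_sdiff, Finset.filter_mem_eq_inter,
        Finset.univ_inter, Finset.card_map, Finset.card_univ]
    · rw [Finset.filter_mem_eq_inter, Finset.univ_inter, Finset.prod_map, sgn_sum]
      simp [h1]
  rw [Finset.mul_sum]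
  symm
  refine Finset.sum_of_injOn enc hinj.injOn (fun _ _ => Finset.mem_univ _) ?_ ?_
  · intro y _ hy
    have : ∃ i, (∀ k, e k ≠ i) ∧ y i ≠ 0 := by
      by_contra hc
      push Not at hc
      apply hy
      refine ⟨fun k => y (e k), by simp, ?_⟩
      funext i
      by_cases hi : ∃ k, e k = i
      · obtain ⟨k, rfl⟩ := hi
        exact h1 _ k
      · push Not at hi
        rw [h0 _ i hi, hc i hi]
    obtain ⟨i, hi, hyi⟩ := this
    have : wt (Finset.univ.map e) y = 0 := by
      refine Finset.prod_eq_zero (Finset.mem_univ i) ?_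
      have hi' : i ∉ Finset.univ.map e := by simpa using hi
      simp [hi', hyi]
    rw [this, zero_mul]
  · intro x _
    rw [hw, mul_assoc]

/-- Some Hadamard basis sees the parity coefficient of the diagonal of `M`. -/
theorem exists_entry (e : κ ↪ ι) (enc : (κ → Fin 2) → (ι → Fin 2))
    (h1 : ∀ x k, enc x (e k) = x k) (h0 : ∀ x i, (∀ k, e k ≠ i) → enc x i = 0)
    (M : Matrix (ι → Fin 2) (ι → Fin 2) ℂ) :
    ∃ L : ι → Matrix (Fin 2) (Fin 2) ℂ, (∀ i, L i ∈ Matrix.unitaryGroup (Fin 2) ℂ) ∧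
      ‖∑ x : κ → Fin 2, sgn (∑ k, x k) * M (enc x) (enc x)‖
        ≤ 2 ^ Fintype.card κ * ‖((kron L)ᴴ * M * kron L) 0 (ind (Finset.univ.map e))‖ := by
  set In : Finset ι := Finset.univ.map e with hIn
  obtain ⟨z, -, hz⟩ := Finset.exists_max_image (Finset.univ : Finset (ι → Fin 2))
    (fun z => ‖((kron (loc In z))ᴴ * M * kron (loc In z)) 0 (ind In)‖) Finset.univ_nonempty
  refine ⟨loc In z, loc_unitary In z, ?_⟩
  have hs := sum_entry In M
  rw [hIn, sum_wt e enc h1 h0 (fun y => M y y), ← hIn] at hs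
  have hle : ‖∑ z : ι → Fin 2, ((kron (loc In z))ᴴ * M * kron (loc In z)) 0 (ind In)‖
      ≤ 2 ^ Fintype.card ι * ‖((kron (loc In z))ᴴ * M * kron (loc In z)) 0 (ind In)‖ := by
    refine (norm_sum_le _ _).trans ?_
    refine (Finset.sum_le_card_nsmul _ _ _ (fun w hw => hz w hw)).trans ?_
    simp
  rw [hs, norm_mul, norm_pow, Complex.norm_two] at hle
  have hc : Fintype.card κ ≤ Fintype.card ι := Fintype.card_le_of_embedding e
  have hp : (2 : ℝ) ^ Fintype.card ι
      = 2 ^ (Fintype.card ι - Fintype.card κ) * 2 ^ Fintype.card κ := by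
    rw [← pow_add, Nat.sub_add_cancel hc]
  rw [hp, mul_assoc] at hle
  exact le_of_mul_le_mul_left hle (by positivity)

lemma sum_sgn [Nonempty κ] : ∑ x : κ → Fin 2, sgn (∑ k, x k) = 0 := by
  have h : ∀ x : κ → Fin 2, sgn (∑ k, x k) = ∏ k, (fun (_ : κ) (b : Fin 2) => sgn b) k (x k) :=
    fun x => sgn_sum _ x
  simp only [h]
  rw [← Fintype.piFinset_univ, ← Finset.prod_univ_sum]
  obtain ⟨k⟩ := ‹Nonempty κ›
  exact Finset.prod_eq_zero (Finset.mem_univ k) (by simp [sgn])

/-- The projection onto outcome `0` of qubit `out`. -/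
def projZero (out : ι) : Matrix (ι → Fin 2) (ι → Fin 2) ℂ :=
  Matrix.diagonal fun w => if w out = 0 then 1 else 0

/-- Probability of reading `b` on qubit `out` when `C` is applied to the basis state `y`. -/
noncomputable def prob (C : Matrix (ι → Fin 2) (ι → Fin 2) ℂ) (out : ι) (y : ι → Fin 2)
    (b : Fin 2) : ℝ :=
  ∑ w : ι → Fin 2, if w out = b then ‖C w y‖ ^ 2 else 0

lemma diag_eq (C : Matrix (ι → Fin 2) (ι → Fin 2) ℂ) (out : ι) (y : ι → Fin 2) :
    (Cᴴ * projZero out * C) y y = (prob C out y 0 : ℝ) := by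
  rw [Matrix.mul_apply]
  simp only [projZero, Matrix.mul_diagonal, Matrix.conjTranspose_apply, prob]
  push_cast
  refine Finset.sum_congr rfl fun w _ => ?_
  split_ifs
  · rw [mul_one, Complex.star_def, Complex.conj_mul']
    push_cast
    rfl
  · simp

lemma prob_add (C : Matrix (ι → Fin 2) (ι → Fin 2) ℂ) (hC : Cᴴ * C = 1) (out : ι)
    (y : ι → Fin 2) : prob C out y 0 + prob C out y 1 = 1 := by
  have h := congrFun (congrFun hC y) y
  rw [Matrix.mul_apply, Matrix.one_apply_eq] at h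
  have h' : ((∑ w : ι → Fin 2, ‖C w y‖ ^ 2 : ℝ) : ℂ) = 1 := by
    rw [← h]
    push_cast
    refine Finset.sum_congr rfl fun w _ => ?_
    rw [Matrix.conjTranspose_apply, Complex.star_def, Complex.conj_mul']
  have h'' : (∑ w : ι → Fin 2, ‖C w y‖ ^ 2 : ℝ) = 1 := by exact_mod_cast h'
  rw [← h'', prob, prob, ← Finset.sum_add_distrib]
  refine Finset.sum_congr rfl fun w _ => ?_
  generalize w out = a
  fin_cases a <;> simp

/-- Twice the parity coefficient is the sum of (correct − wrong). -/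
lemma two_mul_sum [Nonempty κ] (C : Matrix (ι → Fin 2) (ι → Fin 2) ℂ) (hC : Cᴴ * C = 1)
    (out : ι) (enc : (κ → Fin 2) → (ι → Fin 2)) :
    2 * ∑ x : κ → Fin 2, sgn (∑ k, x k) * (Cᴴ * projZero out * C) (enc x) (enc x)
      = ((∑ x : κ → Fin 2, (prob C out (enc x) (∑ k, x k)
          - prob C out (enc x) (∑ k, x k + 1)) : ℝ) : ℂ) := by
  have h0 := sum_sgn (κ := κ)
  rw [← sub_zero (2 * _), ← h0, Finset.mul_sum, ← Finset.sum_sub_distrib]
  push_cast
  refine Finset.sum_congr rfl fun x _ => ?_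
  rw [diag_eq]
  have ha := prob_add C hC out (enc x)
  have ha' : ((prob C out (enc x) 0 : ℝ) : ℂ) + (prob C out (enc x) 1 : ℝ) = 1 := by
    exact_mod_cast ha
  generalize (∑ k, x k) = a
  fin_cases a
  · simp only [sgn, Fin.zero_eta, if_true, zero_add]
    linear_combination ha'
  · have : (1 : Fin 2) + 1 = 0 := rfl
    simp only [sgn, Fin.mk_one, one_ne_zero, if_false, this]
    linear_combination -ha'

/-- Step E, average-case form: the parity correlation is at most twice a matrix entry. -/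
theorem corr_le [Nonempty κ] (e : κ ↪ ι) (enc : (κ → Fin 2) → (ι → Fin 2))
    (h1 : ∀ x k, enc x (e k) = x k) (h0 : ∀ x i, (∀ k, e k ≠ i) → enc x i = 0)
    (C : Matrix (ι → Fin 2) (ι → Fin 2) ℂ) (hC : Cᴴ * C = 1) (out : ι) :
    ∃ L : ι → Matrix (Fin 2) (Fin 2) ℂ, (∀ i, L i ∈ Matrix.unitaryGroup (Fin 2) ℂ) ∧
      |(∑ x : κ → Fin 2, (prob C out (enc x) (∑ k, x k)
          - prob C out (enc x) (∑ k, x k + 1))) / 2 ^ Fintype.card κ|
        ≤ 2 * ‖((kron L)ᴴ * (Cᴴ * projZero out * C) * kron L) 0 (ind (Finset.univ.map e))‖ := by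
  obtain ⟨L, hL, h⟩ := exists_entry e enc h1 h0 (Cᴴ * projZero out * C)
  refine ⟨L, hL, ?_⟩
  have h2 := congrArg norm (two_mul_sum C hC out enc)
  rw [norm_mul, Complex.norm_two, Complex.norm_real, Real.norm_eq_abs] at h2
  rw [abs_div, abs_of_pos (by positivity : (0 : ℝ) < 2 ^ Fintype.card κ),
    div_le_iff₀ (by positivity), ← h2]
  nlinarith [h]

/-- Step E, worst-case form. -/
theorem adv_le [Nonempty κ] (e : κ ↪ ι) (enc : (κ → Fin 2) → (ι → Fin 2))
    (h1 : ∀ x k, enc x (e k) = x k) (h0 : ∀ x i, (∀ k, e k ≠ i) → enc x i = 0)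
    (C : Matrix (ι → Fin 2) (ι → Fin 2) ℂ) (hC : Cᴴ * C = 1) (out : ι) (ε : ℝ)
    (hε : ∀ x : κ → Fin 2, 1 / 2 + ε ≤ prob C out (enc x) (∑ k, x k)) :
    ∃ L : ι → Matrix (Fin 2) (Fin 2) ℂ, (∀ i, L i ∈ Matrix.unitaryGroup (Fin 2) ℂ) ∧
      ε ≤ ‖((kron L)ᴴ * (Cᴴ * projZero out * C) * kron L) 0 (ind (Finset.univ.map e))‖ := by
  obtain ⟨L, hL, h⟩ := corr_le e enc h1 h0 C hC out
  refine ⟨L, hL, ?_⟩
  have hx : ∀ x : κ → Fin 2, 2 * ε ≤ prob C out (enc x) (∑ k, x k)
      - prob C out (enc x) (∑ k, x k + 1) := by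
    intro x
    have ha := prob_add C hC out (enc x)
    have hb := hε x
    revert hb
    generalize (∑ k, x k) = a
    intro hb
    fin_cases a
    · simp only [Fin.zero_eta, zero_add] at hb ⊢
      linarith
    · have : (1 : Fin 2) + 1 = 0 := rfl
      simp only [Fin.mk_one, this] at hb ⊢
      linarith
  have hs := Finset.card_nsmul_le_sum Finset.univ _ _ (fun x _ => hx x)
  simp only [Finset.card_univ, Fintype.card_pi, Fintype.card_fin, Finset.prod_const,
    nsmul_eq_mul, Nat.cast_pow, Nat.cast_ofNat] at hs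
  have h3 : 2 * ε ≤ (∑ x : κ → Fin 2, (prob C out (enc x) (∑ k, x k)
          - prob C out (enc x) (∑ k, x k + 1))) / 2 ^ Fintype.card κ := by
    rw [le_div_iff₀ (by positivity)]
    linarith
  have h4 := le_abs_self ((∑ x : κ → Fin 2, (prob C out (enc x) (∑ k, x k)
          - prob C out (enc x) (∑ k, x k + 1))) / 2 ^ Fintype.card κ)
  linarith

/-! Connection with `Lam`. -/

section Link

open scoped Matrix.Norms.L2Operator

variable {ι' : Type} [Fintype ι'] [DecidableEq ι']

lemma projZero_eq (out : ι') : projZero out = PP ({out} : Finset ι') := by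
  unfold projZero PP
  congr 1
  funext w
  simp only [hw_eq_zero_iff, Finset.mem_singleton, forall_eq]

lemma entry_le_of_lam {d : ℕ} {c : ℝ} (e : κ ↪ ι') (C : Op ι') (hC : Circ d C) (out : ι')
    (hL : Lam ι' d (Fintype.card κ) c) (L : ι' → Matrix (Fin 2) (Fin 2) ℂ)
    (hLu : ∀ i, L i ∈ Matrix.unitaryGroup (Fin 2) ℂ) :
    ‖((kron L)ᴴ * (Cᴴ * projZero out * C) * kron L) 0 (ind (Finset.univ.map e))‖ ≤ c := by
  have hloc : IsLoc (tens L) := ⟨L, hLu, rfl⟩
  have hU : Circ d (star (C * tens L)) := (hC.mul_loc hloc).star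
  have h := hL _ hU Finset.univ {out}
  refine le_trans (le_of_eq ?_) ((norm_entry_le _ 0 (ind (Finset.univ.map e))).trans h)
  have hk : kron L = tens L := rfl
  have e1 : PP (Finset.univ : Finset ι') * star (C * tens L) * PP {out} * star (star (C * tens L))
      * QQ Finset.univ (Fintype.card κ)
      = PP (Finset.univ : Finset ι') * ((kron L)ᴴ * (Cᴴ * projZero out * C) * kron L)
        * QQ Finset.univ (Fintype.card κ) := by
    rw [star_star, star_mul, projZero_eq, hk, Matrix.star_eq_conjTranspose,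
      Matrix.star_eq_conjTranspose]
    simp only [mul_assoc]
  have h0 : hw (Finset.univ : Finset ι') 0 = 0 := by
    rw [hw_eq_zero_iff]
    intro i _
    rfl
  have h1 : Fintype.card κ ≤ hw (Finset.univ : Finset ι') (ind (Finset.univ.map e)) := by
    unfold hw
    rw [← Finset.card_univ, ← Finset.card_map e]
    refine Finset.card_le_card fun i hi => ?_
    exact Finset.mem_filter.mpr ⟨Finset.mem_univ _, if_pos hi⟩
  rw [e1, PP, QQ, Matrix.mul_diagonal, Matrix.diagonal_mul, if_pos h0, if_pos h1, one_mul, mul_one]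

/-- Step E, average case: `λ_d(n) ≤ c` bounds the parity correlation of every depth `d` circuit
by `2 c`. -/
theorem corr_le_of_lam [Nonempty κ] {d : ℕ} {c : ℝ} (e : κ ↪ ι')
    (enc : (κ → Fin 2) → (ι' → Fin 2))
    (h1 : ∀ x k, enc x (e k) = x k) (h0 : ∀ x i, (∀ k, e k ≠ i) → enc x i = 0)
    (C : Op ι') (hC : Circ d C) (out : ι') (hL : Lam ι' d (Fintype.card κ) c) :
    |(∑ x : κ → Fin 2, (prob C out (enc x) (∑ k, x k)
        - prob C out (enc x) (∑ k, x k + 1))) / 2 ^ Fintype.card κ| ≤ 2 * c := by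
  have hu : Cᴴ * C = 1 := (Unitary.mem_iff.mp hC.unitary).1
  obtain ⟨L, hLu, h⟩ := corr_le e enc h1 h0 C hu out
  have := entry_le_of_lam e C hC out hL L hLu
  linarith

/-- Step E, worst case: `λ_d(n) ≤ c` bounds the worst-case advantage of every depth `d` circuit
by `c`. -/
theorem adv_le_of_lam [Nonempty κ] {d : ℕ} {c : ℝ} (e : κ ↪ ι')
    (enc : (κ → Fin 2) → (ι' → Fin 2))
    (h1 : ∀ x k, enc x (e k) = x k) (h0 : ∀ x i, (∀ k, e k ≠ i) → enc x i = 0)
    (C : Op ι') (hC : Circ d C) (out : ι') (hL : Lam ι' d (Fintype.card κ) c) (ε : ℝ)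
    (hε : ∀ x : κ → Fin 2, 1 / 2 + ε ≤ prob C out (enc x) (∑ k, x k)) : ε ≤ c := by
  have hu : Cᴴ * C = 1 := (Unitary.mem_iff.mp hC.unitary).1
  obtain ⟨L, hLu, h⟩ := adv_le e enc h1 h0 C hu out ε hε
  exact h.trans (entry_le_of_lam e C hC out hL L hLu)

end Link

end Vale.Agent.N368.Parity
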