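import Mathlib

/-!
# P368: quantum circuits with one-qubit gates and generalized Toffoli gates

The objects of the problem, word for word. Bits are elements of `Fin 2`, whose addition is the
exclusive or and whose multiplication is the conjunction.
-/

namespace Vale.Agent.N368.Stmt

open Finset

/-- Bit strings of length `N`: the computational basis of `N` qubits. -/
abbrev Bits (N : ℕ) : Type := Fin N → Fin 2

/-- The gates on `N` qubits: a one-qubit unitary `u` on the qubit `q`, or a generalized Toffoli
gate with a nonempty set `ctrl` of control qubits and a target qubit `tgt` outside it. -/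
inductive Gate (N : ℕ) : Type
  | one (q : Fin N) (u : Matrix.unitaryGroup (Fin 2) ℂ)
  | toffoli (ctrl : Finset (Fin N)) (tgt : Fin N) (nonempty : ctrl.Nonempty) (distinct : tgt ∉ ctrl)

variable {N : ℕ}

/-- The qubits on which a gate acts. -/
def Gate.support : Gate N → Finset (Fin N)
  | .one q _ => {q}
  | .toffoli ctrl tgt _ _ => insert tgt ctrl

/-- The gate acts on more than one qubit. -/
def Gate.isMulti : Gate N → Bool
  | .one _ _ => false
  | .toffoli _ _ _ _ => true

/-- The matrix of a gate; the entry at `y`, `x` is `⟨y|G|x⟩`. The one-qubit gate is `u` on the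
qubit `q` and the identity on the others; the Toffoli gate maps `|z⟩` to the basis state in which
the bit `b` of the target is replaced by `b ⊕ z₁ ⋯ z_t`, the `z_i` being the control bits. -/
noncomputable def Gate.mat : Gate N → Matrix (Bits N) (Bits N) ℂ
  | .one q u => Matrix.of fun y x => if ∀ i, i ≠ q → y i = x i then u.1 (y q) (x q) else 0
  | .toffoli ctrl tgt _ _ => Matrix.of fun y x =>
      if y = Function.update x tgt (x tgt + ∏ i ∈ ctrl, x i) then 1 else 0

/-- A layer: gates with pairwise disjoint supports. -/
structure Layer (N : ℕ) : Type where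
  /-- the gates -/
  gates : List (Gate N)
  disjoint : gates.Pairwise fun g h => Disjoint g.support h.support

/-- The matrix of a layer, the product of the matrices of its gates. -/
noncomputable def Layer.mat (L : Layer N) : Matrix (Bits N) (Bits N) ℂ :=
  (L.gates.map Gate.mat).prod

/-- A circuit with `n` input bits: `N ≥ n` qubits, a list of layers (the first one is applied
first) and the qubit which is measured at the end. -/
structure Circuit (n : ℕ) : Type where
  /-- the number of qubits -/
  N : ℕ
  le : n ≤ N
  /-- the layers -/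
  layers : List (Layer N)
  /-- the measured qubit -/
  out : Fin N

variable {n : ℕ}

/-- The depth: the number of layers. -/
def Circuit.depth (C : Circuit n) : ℕ := C.layers.length

/-- The entangling depth: the number of layers with a multiqubit gate. -/
def Circuit.entanglingDepth (C : Circuit n) : ℕ :=
  C.layers.countP fun L => L.gates.any Gate.isMulti

/-- The unitary matrix of the circuit. -/
noncomputable def Circuit.mat (C : Circuit n) : Matrix (Bits C.N) (Bits C.N) ℂ :=
  (C.layers.reverse.map Layer.mat).prod

/-- The basis state `|x⟩ ⊗ |0⟩ ⊗ ⋯ ⊗ |0⟩`. -/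
def Circuit.pad (C : Circuit n) (x : Bits n) : Bits C.N :=
  fun i => if h : i.1 < n then x ⟨i.1, h⟩ else 0

/-- The probability that on input `x` the final measurement of the qubit `out` gives `b`. -/
noncomputable def Circuit.prob (C : Circuit n) (x : Bits n) (b : Fin 2) : ℝ :=
  ∑ y with y C.out = b, ‖C.mat y (C.pad x)‖ ^ 2

/-- The parity `x₁ ⊕ ⋯ ⊕ x_n`. -/
def parity (x : Bits n) : Fin 2 := ∑ i, x i

/-- The circuit computes parity with worst-case advantage `ε`. -/
def Circuit.ComputesParity (C : Circuit n) (ε : ℝ) : Prop :=
  ∀ x : Bits n, 1 / 2 + ε ≤ C.prob x (parity x)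

/-- The parity correlation: the average over `x` of `Pr[correct] - Pr[wrong]`. -/
noncomputable def Circuit.correlation (C : Circuit n) : ℝ :=
  (∑ x : Bits n, (C.prob x (parity x) - C.prob x (parity x + 1))) / 2 ^ n

/-- A QAC0 family: constant depth and polynomially many qubits. -/
def IsQAC0 (C : ∀ n, Circuit n) : Prop :=
  (∃ d : ℕ, ∀ n, (C n).depth ≤ d) ∧ ∃ p : Polynomial ℕ, ∀ n, (C n).N ≤ p.eval n

/-- Fanout on basis states: `|y₁, …, y_n, b⟩ ↦ |y₁ ⊕ b, …, y_n ⊕ b, b⟩`. -/
def fanout (y : Bits (n + 1)) : Bits (n + 1) :=
  fun i => if i = Fin.last n then y i else y i + y (Fin.last n)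

/-- The circuit implements the fanout unitary `F_n` on its first `n + 1` qubits and returns the
ancillas to `|0⟩`: it maps `|y⟩ ⊗ |0⟩` to `|F_n y⟩ ⊗ |0⟩`. -/
def Circuit.ImplementsFanout (C : Circuit (n + 1)) : Prop :=
  ∀ (y : Bits (n + 1)) (z : Bits C.N), C.mat z (C.pad y) = if z = C.pad (fanout y) then 1 else 0

end Vale.Agent.N368.Stmt
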