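import Mathlib
import Vale.Agent.N368.Defs
import Vale.Agent.N368.Parity
import Vale.Agent.N368.Stmt

/-!
Step E for the circuits of the statement file.
-/

namespace Vale.Agent.N368.Bridge

open Vale.Agent.N368 Vale.Agent.N368.Stmt

variable {n : ℕ}

lemma prob_eq (C : Circuit n) (x : Bits n) (b : Fin 2) :
    C.prob x b = Parity.prob C.mat C.out (C.pad x) b := by
  unfold Circuit.prob Parity.prob
  rw [Finset.sum_filter]

lemma pad_in (C : Circuit n) (x : Bits n) (k : Fin n) : C.pad x (Fin.castLEEmb C.le k) = x k := by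
  unfold Circuit.pad
  have h : (Fin.castLEEmb C.le k).1 < n := k.2
  rw [dif_pos h]
  rfl

lemma pad_out (C : Circuit n) (x : Bits n) (i : Fin C.N)
    (hi : ∀ k, Fin.castLEEmb C.le k ≠ i) : C.pad x i = 0 := by
  unfold Circuit.pad
  rw [dif_neg]
  intro h
  exact hi ⟨i.1, h⟩ rfl

/-- `λ_d(n) ≤ c` bounds the parity correlation by `2 c`. -/
theorem correlation_le (hn : 1 ≤ n) (C : Circuit n) {d : ℕ} {c : ℝ} (hC : Circ d C.mat)
    (hL : Lam (Fin C.N) d n c) : |C.correlation| ≤ 2 * c := by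
  haveI : Nonempty (Fin n) := ⟨⟨0, hn⟩⟩
  have hL' : Lam (Fin C.N) d (Fintype.card (Fin n)) c := by rwa [Fintype.card_fin]
  have h := Parity.corr_le_of_lam (Fin.castLEEmb C.le) C.pad (pad_in C) (pad_out C) C.mat hC
    C.out hL'
  rw [Fintype.card_fin] at h
  unfold Circuit.correlation parity
  simp only [prob_eq]
  exact h

/-- `λ_d(n) ≤ c` bounds the worst-case advantage by `c`. -/
theorem advantage_le (hn : 1 ≤ n) (C : Circuit n) {d : ℕ} {c ε : ℝ} (hC : Circ d C.mat)
    (hL : Lam (Fin C.N) d n c) (hε : C.ComputesParity ε) : ε ≤ c := by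
  haveI : Nonempty (Fin n) := ⟨⟨0, hn⟩⟩
  have hL' : Lam (Fin C.N) d (Fintype.card (Fin n)) c := by rwa [Fintype.card_fin]
  refine Parity.adv_le_of_lam (Fin.castLEEmb C.le) C.pad (pad_in C) (pad_out C) C.mat hC
    C.out hL' ε fun x => ?_
  rw [← prob_eq]
  exact hε x

end Vale.Agent.N368.Bridge
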