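import Mathlib.Analysis.SpecialFunctions.Trigonometric.Chebyshev.RootsExtrema

/-!
# P368, step C: a low-degree polynomial of the Hamming weight with small coefficient mass
-/

namespace Vale.Agent.N368.Poly

open Finset

variable {ι : Type*} [Fintype ι] [DecidableEq ι]

/-- `f` is a combination of the monomials `[I ⊆ T]`, `|I| ≤ D`, with coefficient mass at most
`W`. -/
def Low (D : ℕ) (W : ℝ) (f : Finset ι → ℝ) : Prop :=
  ∃ c : Finset ι → ℝ, (∀ I, c I ≠ 0 → I.card ≤ D) ∧ ∑ I, |c I| ≤ W ∧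
    ∀ T, f T = ∑ I, if I ⊆ T then c I else 0

theorem Low.mono {D D' : ℕ} {W W' : ℝ} {f : Finset ι → ℝ} (h : Low D W f) (hD : D ≤ D')
    (hW : W ≤ W') : Low D' W' f := by
  obtain ⟨c, h1, h2, h3⟩ := h
  exact ⟨c, fun I hI => (h1 I hI).trans hD, h2.trans hW, h3⟩

theorem Low.congr {D : ℕ} {W : ℝ} {f g : Finset ι → ℝ} (h : Low D W f) (e : ∀ T, g T = f T) :
    Low D W g := by
  obtain ⟨c, h1, h2, h3⟩ := h
  exact ⟨c, h1, h2, fun T => (e T).trans (h3 T)⟩

theorem Low.nonneg {D : ℕ} {W : ℝ} {f : Finset ι → ℝ} (h : Low D W f) : 0 ≤ W := by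
  obtain ⟨c, -, h2, -⟩ := h
  exact (sum_nonneg fun I _ => abs_nonneg _).trans h2

theorem Low.abs_le {D : ℕ} {W : ℝ} {f : Finset ι → ℝ} (h : Low D W f) (T : Finset ι) :
    |f T| ≤ W := by
  obtain ⟨c, -, h2, h3⟩ := h
  rw [h3]
  refine (abs_sum_le_sum_abs _ _).trans (le_trans (sum_le_sum fun I _ => ?_) h2)
  split_ifs
  · exact le_rfl
  · simp

theorem low_monomial (J : Finset ι) (a : ℝ) :
    Low J.card |a| (fun T : Finset ι => if J ⊆ T then a else 0) := by
  refine ⟨fun I => if I = J then a else 0, fun I hI => ?_, ?_, fun T => ?_⟩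
  · by_cases h : I = J
    · rw [h]
    · simp [h] at hI
  · rw [sum_eq_single J]
    · simp
    · intro b _ hb
      simp [hb]
    · simp
  · rw [sum_eq_single J]
    · simp
    · intro b _ hb
      simp [hb]
    · simp

theorem low_const (a : ℝ) : Low 0 |a| (fun _ : Finset ι => a) :=
  (low_monomial (∅ : Finset ι) a).congr fun T => by simp

theorem Low.add {D : ℕ} {W W' : ℝ} {f g : Finset ι → ℝ} (hf : Low D W f) (hg : Low D W' g) :
    Low D (W + W') (fun T => f T + g T) := by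
  obtain ⟨c, h1, h2, h3⟩ := hf
  obtain ⟨c', h1', h2', h3'⟩ := hg
  refine ⟨fun I => c I + c' I, fun I hI => ?_, ?_, fun T => ?_⟩
  · by_cases h : c I = 0
    · exact h1' I fun h' => hI (by simp [h, h'])
    · exact h1 I h
  · calc ∑ I, |c I + c' I| ≤ ∑ I, (|c I| + |c' I|) := sum_le_sum fun I _ => abs_add_le _ _
      _ ≤ W + W' := by rw [sum_add_distrib]; exact add_le_add h2 h2'
  · simp only [h3, h3', ← sum_add_distrib]
    refine sum_congr rfl fun I _ => ?_
    split_ifs <;> simp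

theorem Low.mul {D D' : ℕ} {W W' : ℝ} {f g : Finset ι → ℝ} (hf : Low D W f) (hg : Low D' W' g) :
    Low (D + D') (W * W') (fun T => f T * g T) := by
  have hW' := hg.nonneg
  obtain ⟨c, h1, h2, h3⟩ := hf
  obtain ⟨c', h1', h2', h3'⟩ := hg
  refine ⟨fun K => ∑ I, ∑ J, if I ∪ J = K then c I * c' J else 0, fun K hK => ?_, ?_, fun T => ?_⟩
  · obtain ⟨I, -, hI⟩ := exists_ne_zero_of_sum_ne_zero hK
    obtain ⟨J, -, hJ⟩ := exists_ne_zero_of_sum_ne_zero hI
    split_ifs at hJ with h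
    · rw [← h]
      exact (card_union_le I J).trans
        (add_le_add (h1 I (left_ne_zero_of_mul hJ)) (h1' J (right_ne_zero_of_mul hJ)))
    · exact absurd rfl hJ
  · calc ∑ K, |∑ I, ∑ J, if I ∪ J = K then c I * c' J else 0|
        ≤ ∑ K, ∑ I, ∑ J, if I ∪ J = K then |c I| * |c' J| else 0 := by
          refine sum_le_sum fun K _ => (abs_sum_le_sum_abs _ _).trans (sum_le_sum fun I _ =>
            (abs_sum_le_sum_abs _ _).trans (sum_le_sum fun J _ => ?_))
          split_ifs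
          · exact (abs_mul _ _).le
          · simp
      _ = (∑ I, |c I|) * ∑ J, |c' J| := by
          rw [sum_comm, sum_mul_sum]
          refine sum_congr rfl fun I _ => ?_
          rw [sum_comm]
          refine sum_congr rfl fun J _ => ?_
          simp
      _ ≤ W * W' := mul_le_mul h2 h2' (sum_nonneg fun _ _ => abs_nonneg _)
          ((sum_nonneg fun _ _ => abs_nonneg _).trans h2)
  · have e : ∀ K : Finset ι, (if K ⊆ T then ∑ I, ∑ J, (if I ∪ J = K then c I * c' J else 0) else 0)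
        = ∑ I, ∑ J, if I ∪ J = K then (if K ⊆ T then c I * c' J else 0) else 0 := by
      intro K
      split_ifs <;> simp
    simp only [h3, h3', e]
    rw [sum_mul_sum, sum_comm (γ := Finset ι) (s := univ) (t := univ)
      (f := fun K I => ∑ J, if I ∪ J = K then (if K ⊆ T then c I * c' J else 0) else 0)]
    refine sum_congr rfl fun I _ => ?_
    rw [sum_comm]
    refine sum_congr rfl fun J _ => ?_
    rw [sum_ite_eq univ (I ∪ J) fun K => if K ⊆ T then c I * c' J else 0]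
    by_cases hI : I ⊆ T <;> by_cases hJ : J ⊆ T <;> simp [hI, hJ, union_subset_iff]

theorem Low.smul {D : ℕ} {W : ℝ} {f : Finset ι → ℝ} (hf : Low D W f) (a : ℝ) :
    Low D (|a| * W) (fun T => a * f T) := by
  simpa using (low_const (ι := ι) a).mul hf

theorem Low.sub {D : ℕ} {W W' : ℝ} {f g : Finset ι → ℝ} (hf : Low D W f) (hg : Low D W' g) :
    Low D (W + W') (fun T => f T - g T) := by
  have := hf.add (hg.smul (-1))
  simp only [abs_neg, abs_one, one_mul] at this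
  exact this.congr fun T => by ring

theorem Low.pow {D : ℕ} {W : ℝ} {f : Finset ι → ℝ} (hf : Low D W f) (a : ℕ) :
    Low (a * D) (W ^ a) (fun T => f T ^ a) := by
  induction a with
  | zero => simpa using low_const (ι := ι) 1
  | succ a ih =>
    have := ih.mul hf
    rw [← Nat.succ_mul, ← pow_succ] at this
    exact this.congr fun T => pow_succ _ _

theorem low_prod {α : Type*} (s : Finset α) {W : ℝ} (f : α → Finset ι → ℝ)
    (hf : ∀ a ∈ s, Low 1 W (f a)) : Low s.card (W ^ s.card) (fun T => ∏ a ∈ s, f a T) := by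
  classical
  induction s using Finset.induction_on with
  | empty => simpa using low_const (ι := ι) 1
  | insert a s ha ih =>
    have := (ih fun b hb => hf b (mem_insert_of_mem hb)).mul (hf a (mem_insert_self _ _))
    rw [← pow_succ, ← card_insert_of_notMem ha] at this
    exact this.congr fun T => by rw [prod_insert ha, mul_comm]

theorem low_card (S : Finset ι) : Low 1 S.card (fun T : Finset ι => ((S ∩ T).card : ℝ)) := by
  induction S using Finset.induction_on with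
  | empty => simpa using (low_const (ι := ι) 0).mono (Nat.zero_le 1) le_rfl
  | insert a s ha ih =>
    have h := ih.add (low_monomial ({a} : Finset ι) 1)
    rw [card_insert_of_notMem ha]
    refine (h.mono le_rfl (by simp)).congr fun T => ?_
    by_cases hT : a ∈ T
    · rw [insert_inter_of_mem hT, card_insert_of_notMem (fun h => ha (mem_inter.1 h).1)]
      simp [hT]
    · rw [insert_inter_of_notMem hT]
      simp [hT]

/-- Values of the Chebyshev polynomials. -/
noncomputable def ch (k : ℕ) (x : ℝ) : ℝ := (Polynomial.Chebyshev.T ℝ k).eval x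

theorem ch_zero (x : ℝ) : ch 0 x = 1 := by simp [ch]

theorem ch_one (x : ℝ) : ch 1 x = x := by simp [ch]

theorem ch_add_two (k : ℕ) (x : ℝ) : ch (k + 2) x = 2 * x * ch (k + 1) x - ch k x := by
  have := Polynomial.Chebyshev.T_add_two ℝ (k : ℤ)
  simp only [ch]
  push_cast
  rw [this]
  simp

theorem abs_ch_le (k : ℕ) {x : ℝ} (hx : |x| ≤ 1) : |ch k x| ≤ 1 :=
  Polynomial.Chebyshev.abs_eval_T_real_le_one _ hx

theorem ch_growth (k : ℕ) {δ : ℝ} (hδ : 0 ≤ δ) :
    1 + (k : ℝ) ^ 2 * δ ≤ ch k (1 + δ) ∧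
      (2 * k + 1) * δ ≤ ch (k + 1) (1 + δ) - ch k (1 + δ) := by
  induction k with
  | zero => simp [ch_zero, ch_one]
  | succ k ih =>
    obtain ⟨h1, h2⟩ := ih
    have h3 : 1 + ((k + 1 : ℕ) : ℝ) ^ 2 * δ ≤ ch (k + 1) (1 + δ) := by
      push_cast
      nlinarith
    refine ⟨h3, ?_⟩
    have h4 : (1 : ℝ) ≤ ch (k + 1) (1 + δ) := le_trans (by nlinarith [sq_nonneg ((k + 1 : ℕ) : ℝ)]) h3
    rw [show k + 1 + 1 = k + 2 from rfl, ch_add_two]
    push_cast
    nlinarith [mul_le_mul_of_nonneg_left h4 hδ]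

theorem low_ch {A : ℝ} {y : Finset ι → ℝ} (hy : Low 1 A y) (k : ℕ) :
    Low k ((2 * A + 1) ^ k) (fun T => ch k (y T)) ∧
      Low (k + 1) ((2 * A + 1) ^ (k + 1)) (fun T => ch (k + 1) (y T)) := by
  have hA := hy.nonneg
  induction k with
  | zero =>
    refine ⟨?_, ?_⟩
    · simpa [ch_zero] using low_const (ι := ι) 1
    · refine (hy.mono le_rfl ?_).congr fun T => ch_one _
      simp only [zero_add, pow_one]
      linarith
  | succ k ih =>
    obtain ⟨h1, h2⟩ := ih
    refine ⟨h2, ?_⟩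
    have h3 := ((hy.smul 2).mul h2).sub (h1.mono (by omega : k ≤ 1 + (k + 1)) le_rfl)
    refine (h3.mono (by omega) ?_).congr fun T => ch_add_two k _
    have h4 : (2 * A + 1) ^ k ≤ (2 * A + 1) ^ (k + 1) :=
      pow_le_pow_right₀ (by linarith) (Nat.le_succ k)
    rw [abs_two, pow_succ (2 * A + 1) (k + 1)]
    nlinarith

/-- The polynomial of step C, as a function of the weight `h`. -/
noncomputable def pol (l k m : ℕ) (h : ℝ) : ℝ :=
  (∏ i ∈ Ico 1 m, (1 - h / i)) *
    (ch k (1 + (m - h) / (k ^ 2 * m)) / ch k (1 + 1 / k ^ 2)) ^ ((l + 1) * m)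

theorem two_le_ch {k : ℕ} (hk : 1 ≤ k) : 2 ≤ ch k (1 + 1 / (k : ℝ) ^ 2) := by
  have hk' : (0 : ℝ) < k := by exact_mod_cast hk
  have := (ch_growth k (δ := 1 / (k : ℝ) ^ 2) (by positivity)).1
  rw [mul_one_div_cancel (by positivity)] at this
  linarith

theorem pol_zero (l : ℕ) {k m : ℕ} (hk : 1 ≤ k) (hm : 1 ≤ m) : pol l k m 0 = 1 := by
  have hk' : (0 : ℝ) < k := by exact_mod_cast hk
  have hm' : (0 : ℝ) < m := by exact_mod_cast hm
  have h2 := two_le_ch hk
  have e : ((m : ℝ) - 0) / (k ^ 2 * m) = 1 / k ^ 2 := by field_simp; ring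
  rw [pol, e, div_self (by linarith)]
  simp

theorem abs_pol_le {N l k m h : ℕ} (hN : 2 * N + 5 ≤ 2 ^ l) (hk : 1 ≤ k) (hm : 1 ≤ m)
    (h1 : 1 ≤ h) (hr : h < k ^ 2 * m) (hh : h ≤ N) : |pol l k m h| ≤ (2 : ℝ)⁻¹ ^ m := by
  have hk' : (0 : ℝ) < k := by exact_mod_cast hk
  have hm' : (0 : ℝ) < m := by exact_mod_cast hm
  by_cases hlt : h < m
  · have : ∏ i ∈ Ico 1 m, (1 - (h : ℝ) / i) = 0 := by
      refine prod_eq_zero (mem_Ico.2 ⟨h1, hlt⟩) ?_
      rw [div_self (by positivity), sub_self]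
    rw [pol, this, zero_mul, abs_zero]
    positivity
  · have hge : (m : ℝ) ≤ h := by exact_mod_cast not_lt.1 hlt
    have hr' : (h : ℝ) ≤ k ^ 2 * m := by exact_mod_cast hr.le
    have hN' : (2 * N + 5 : ℝ) ≤ 2 ^ l := by exact_mod_cast hN
    have hh' : (h : ℝ) ≤ N := by exact_mod_cast hh
    have hpos : (0 : ℝ) < k ^ 2 * m := by positivity
    have a1 : |1 + ((m : ℝ) - h) / (k ^ 2 * m)| ≤ 1 := by
      have b1 : ((m : ℝ) - h) / (k ^ 2 * m) ≤ 0 := div_nonpos_of_nonpos_of_nonneg (by linarith) hpos.le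
      have b2 : -1 ≤ ((m : ℝ) - h) / (k ^ 2 * m) := by
        rw [le_div_iff₀ hpos]
        linarith
      rw [abs_le]
      constructor <;> linarith
    have h2 := two_le_ch hk
    have a2 : |ch k (1 + ((m : ℝ) - h) / (k ^ 2 * m)) / ch k (1 + 1 / k ^ 2)| ≤ 2⁻¹ := by
      rw [abs_div, abs_of_pos (by linarith : 0 < ch k (1 + 1 / (k : ℝ) ^ 2)),
        div_le_iff₀ (by linarith)]
      have := abs_ch_le k a1
      linarith
    have a3 : |∏ i ∈ Ico 1 m, (1 - (h : ℝ) / i)| ≤ ((2 : ℝ) ^ l) ^ m := by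
      rw [abs_prod]
      refine (prod_le_prod (g := fun _ => (2 : ℝ) ^ l) (fun _ _ => abs_nonneg _) fun i hi => ?_).trans ?_
      · have hi' : (1 : ℝ) ≤ i := by exact_mod_cast (mem_Ico.1 hi).1
        have b1 : (h : ℝ) / i ≤ h := div_le_self (by positivity) hi'
        have b2 : 0 ≤ (h : ℝ) / i := by positivity
        have b3 : (0 : ℝ) ≤ N := by positivity
        rw [abs_le]
        constructor <;> linarith
      · rw [prod_const, Nat.card_Ico]
        exact pow_le_pow_right₀ (one_le_pow₀ one_le_two) (Nat.sub_le _ _)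
    rw [pol, abs_mul, abs_pow]
    calc _ ≤ ((2 : ℝ) ^ l) ^ m * (2⁻¹) ^ ((l + 1) * m) :=
          mul_le_mul a3 (pow_le_pow_left₀ (abs_nonneg _) a2 _) (by positivity) (by positivity)
      _ = (2 : ℝ)⁻¹ ^ m := by
          rw [pow_mul, ← mul_pow, pow_succ, ← mul_assoc, ← mul_pow]
          simp

theorem low_pol (S : Finset ι) {N l k m : ℕ} (hS : S.card ≤ N) (hN : 2 * N + 5 ≤ 2 ^ l)
    (hk : 1 ≤ k) (hm : 1 ≤ m) :
    Low ((l + 2) * m * k) (2 ^ (l * ((l + 2) * m * k)))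
      (fun T : Finset ι => pol l k m ((S ∩ T).card : ℝ)) := by
  have hk' : (1 : ℝ) ≤ k := by exact_mod_cast hk
  have hm' : (1 : ℝ) ≤ m := by exact_mod_cast hm
  have hS' : (S.card : ℝ) ≤ N := by exact_mod_cast hS
  have hN' : (2 * N + 5 : ℝ) ≤ 2 ^ l := by exact_mod_cast hN
  have hN0 : (0 : ℝ) ≤ N := by positivity
  have hc := (low_card S).mono le_rfl hS'
  have hpos : (1 : ℝ) ≤ k ^ 2 * m := one_le_mul_of_one_le_of_one_le (one_le_pow₀ hk') hm'
  -- the product
  have p1 : Low (Ico 1 m).card (((2 : ℝ) ^ l) ^ (Ico 1 m).card)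
      (fun T : Finset ι => ∏ i ∈ Ico 1 m, (1 - ((S ∩ T).card : ℝ) / i)) := by
    refine low_prod (Ico 1 m) (fun i T => 1 - ((S ∩ T).card : ℝ) / i) fun i hi => ?_
    have hi' : (1 : ℝ) ≤ i := by exact_mod_cast (mem_Ico.1 hi).1
    have := ((low_const (ι := ι) 1).mono (Nat.zero_le 1) le_rfl).sub (hc.smul (i : ℝ)⁻¹)
    refine (this.mono le_rfl ?_).congr fun T => by rw [div_eq_inv_mul]
    have b : |(i : ℝ)⁻¹| ≤ 1 := by
      rw [abs_of_nonneg (by positivity)]
      exact inv_le_one_of_one_le₀ hi'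
    rw [abs_one]
    nlinarith [mul_le_mul_of_nonneg_right b hN0]
  -- the argument of the Chebyshev polynomial
  have p2 : Low 1 (N + 2 : ℝ)
      (fun T : Finset ι => 1 + ((m : ℝ) - ((S ∩ T).card : ℝ)) / (k ^ 2 * m)) := by
    have := ((low_const (ι := ι) (1 + (m : ℝ) / (k ^ 2 * m))).mono (Nat.zero_le 1) le_rfl).sub
      (hc.smul ((k : ℝ) ^ 2 * m)⁻¹)
    refine (this.mono le_rfl ?_).congr fun T => by ring
    have b : |((k : ℝ) ^ 2 * m)⁻¹| ≤ 1 := by
      rw [abs_of_nonneg (by positivity)]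
      exact inv_le_one_of_one_le₀ hpos
    have b2 : (m : ℝ) / (k ^ 2 * m) ≤ 1 := by
      rw [div_le_one (by positivity)]
      nlinarith [one_le_pow₀ (n := 2) hk']
    rw [abs_of_nonneg (by positivity : (0 : ℝ) ≤ 1 + (m : ℝ) / (k ^ 2 * m))]
    nlinarith [mul_le_mul_of_nonneg_right b hN0]
  have h2 := two_le_ch hk
  have p3 : Low k (((2 : ℝ) ^ l) ^ k) (fun T : Finset ι =>
      ch k (1 + ((m : ℝ) - ((S ∩ T).card : ℝ)) / (k ^ 2 * m)) / ch k (1 + 1 / k ^ 2)) := by
    have := (low_ch p2 k).1.smul (ch k (1 + 1 / (k : ℝ) ^ 2))⁻¹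
    refine (this.mono le_rfl ?_).congr fun T => by rw [div_eq_inv_mul]
    have b : |(ch k (1 + 1 / (k : ℝ) ^ 2))⁻¹| ≤ 1 := by
      rw [abs_of_nonneg (by positivity)]
      exact inv_le_one_of_one_le₀ (by linarith)
    calc _ ≤ 1 * (2 * ((N : ℝ) + 2) + 1) ^ k := mul_le_mul_of_nonneg_right b (by positivity)
      _ ≤ _ := by
          rw [one_mul]
          exact pow_le_pow_left₀ (by positivity) (by linarith) k
  have hcard : (Ico 1 m).card + (l + 1) * m * k ≤ (l + 2) * m * k := by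
    rw [Nat.card_Ico]
    have : m ≤ m * k := Nat.le_mul_of_pos_right m hk
    have e : (l + 2) * m * k = (l + 1) * m * k + m * k := by ring
    omega
  refine ((p1.mul (p3.pow ((l + 1) * m))).mono hcard ?_).congr fun T => rfl
  rw [← pow_mul ((2 : ℝ) ^ l) k, ← pow_add, ← pow_mul]
  refine pow_le_pow_right₀ one_le_two (Nat.mul_le_mul_left l ?_)
  rw [mul_comm k]
  exact hcard

/-- **Step C.** -/
theorem exists_poly (S : Finset ι) {N l k m : ℕ} (hS : S.card ≤ N) (hN : 2 * N + 5 ≤ 2 ^ l)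
    (hk : 1 ≤ k) (hm : 1 ≤ m) :
    ∃ (c : Finset ι → ℝ) (p : ℕ → ℝ), (∀ I, c I ≠ 0 → I.card ≤ (l + 2) * m * k) ∧
      ∑ I, |c I| ≤ 2 ^ (l * ((l + 2) * m * k)) ∧ p 0 = 1 ∧
      (∀ h, 1 ≤ h → h < k ^ 2 * m → h ≤ N → |p h| ≤ (2 : ℝ)⁻¹ ^ m) ∧
      (∀ T : Finset ι, |p (S ∩ T).card| ≤ 2 ^ (l * ((l + 2) * m * k))) ∧
      ∀ T : Finset ι, p (S ∩ T).card = ∑ I, if I ⊆ T then c I else 0 := by
  have h := low_pol S hS hN hk hm
  obtain ⟨c, h1, h2, h3⟩ := id h
  exact ⟨c, fun h => pol l k m h, h1, h2, by simpa using pol_zero l hk hm,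
    fun h a b c => abs_pol_le hN hk hm a b c, h.abs_le, h3⟩

end Vale.Agent.N368.Poly
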