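import Vale.Agent.N368.Defs
import Vale.Agent.N368.Poly

/-!
The polynomial step of the localization proof, and the depth zero monomial bound.
-/

set_option linter.unusedSectionVars false

namespace Vale.Agent.N368

open Matrix Finset
open scoped Matrix.Norms.L2Operator

variable {ι : Type} [Fintype ι] [DecidableEq ι]

/-- The set of ones of a string. -/
def ones (x : ι → Fin 2) : Finset ι := Finset.univ.filter fun i => x i = 1

theorem hw_eq_card (S : Finset ι) (x : ι → Fin 2) : hw S x = (S ∩ ones x).card := by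
  unfold hw ones
  congr 1
  ext i
  simp

theorem subset_ones (I : Finset ι) (x : ι → Fin 2) : I ⊆ ones x ↔ ∀ i ∈ I, x i = 1 := by
  unfold ones
  simp [Finset.subset_iff]

theorem norm_mul3_le (A X B : Op ι) (hA : ‖A‖ ≤ 1) (hB : ‖B‖ ≤ 1) : ‖A * X * B‖ ≤ ‖X‖ := by
  calc ‖A * X * B‖ ≤ ‖A‖ * ‖X‖ * ‖B‖ := norm_mul₃_le
    _ ≤ 1 * ‖X‖ * 1 := by gcongr
    _ = ‖X‖ := by ring

theorem norm_mul_le_one {A B : Op ι} (hA : ‖A‖ ≤ 1) (hB : ‖B‖ ≤ 1) : ‖A * B‖ ≤ 1 := by
  calc ‖A * B‖ ≤ ‖A‖ * ‖B‖ := norm_mul_le _ _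
    _ ≤ 1 * 1 := by gcongr
    _ = 1 := by ring

/-- The abstract polynomial step. -/
theorem stepB_abstract {d D t r : ℕ} {W ε a b x : ℝ} (hr : 1 ≤ r) (hε : 0 ≤ ε) (ha : 0 ≤ a)
    (hb : 0 ≤ b) (hx : 0 ≤ x) (hW : 0 ≤ W)
    (hpoly : ∀ S : Finset ι, ∃ (c : Finset ι → ℝ) (p : ℕ → ℝ), (∀ I, c I ≠ 0 → I.card ≤ D) ∧
      ∑ I, |c I| ≤ W ∧ p 0 = 1 ∧ (∀ h, 1 ≤ h → h < r → h ≤ S.card → |p h| ≤ ε) ∧
      (∀ T : Finset ι, |p (S ∩ T).card| ≤ W) ∧
      ∀ T : Finset ι, p (S ∩ T).card = ∑ I, if I ⊆ T then c I else 0)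
    (hMu : Mu ι d D t a) (hLam : Lam ι d r b) (hsum : W * a + ε + W * b ≤ x ^ 2) :
    Lam ι d t x := by
  intro U hU S S'
  obtain ⟨c, p, hc, hcW, hp0, hpε, hpW, hp⟩ := hpoly S'
  have hUn : ‖U‖ ≤ 1 := norm_unitary_le hU.unitary
  have hUs : ‖star U‖ ≤ 1 := norm_unitary_le hU.star.unitary
  set Dp : Op ι := diagonal fun y => ((p (hw S' y) : ℝ) : ℂ) with hDp
  set E1 : Op ι := diagonal fun y =>
    if 1 ≤ hw S' y ∧ hw S' y < r then ((p (hw S' y) : ℝ) : ℂ) else 0 with hE1
  have hDsum : Dp = ∑ I, (c I : ℂ) • EE I := by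
    ext y z
    rw [Matrix.sum_apply]
    simp only [hDp, EE, Matrix.smul_apply, Matrix.diagonal_apply, smul_eq_mul]
    split_ifs with h
    · rw [hw_eq_card, hp]
      push_cast
      refine Finset.sum_congr rfl fun I _ => ?_
      by_cases hI : I ⊆ ones y
      · rw [if_pos hI, if_pos ((subset_ones I y).mp hI), mul_one]
      · rw [if_neg hI, if_neg (fun h => hI ((subset_ones I y).mpr h)), mul_zero]
        simp
    · simp
  have hdec : PP S' = Dp - E1 - QQ S' r * Dp := by
    simp only [hDp, hE1, PP, QQ, diagonal_mul_diagonal, diagonal_sub]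
    congr 1
    funext y
    by_cases h0 : hw S' y = 0
    · rw [if_pos h0, if_neg (by omega), if_neg (by omega), h0, hp0]; simp
    · rw [if_neg h0]
      by_cases h1 : r ≤ hw S' y
      · rw [if_neg (by omega), if_pos h1]; simp
      · rw [if_pos (by omega), if_neg h1]; simp
  have hDn : ‖Dp‖ ≤ W := norm_diagonal_le _ hW fun y => by
    rw [Complex.norm_real, Real.norm_eq_abs, hw_eq_card]; exact hpW _
  have hE1n : ‖E1‖ ≤ ε := norm_diagonal_le _ hε fun y => by
    split_ifs with h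
    · rw [Complex.norm_real, Real.norm_eq_abs]; exact hpε _ h.1 h.2 (hw_le_card _ _)
    · simpa using hε
  have hBn : ‖U * PP S' * star U‖ ≤ 1 := (norm_mul3_le _ _ _ hUn hUs).trans (norm_PP_le _)
  have h1 : ‖PP S * U * Dp * star U * QQ S t‖ ≤ W * a := by
    rw [hDsum, Finset.mul_sum, Finset.sum_mul, Finset.sum_mul]
    refine (norm_sum_le _ _).trans ?_
    calc ∑ I, ‖PP S * U * ((c I : ℂ) • EE I) * star U * QQ S t‖ ≤ ∑ I, |c I| * a := by
          refine Finset.sum_le_sum fun I _ => ?_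
          rw [mul_smul_comm, smul_mul_assoc, smul_mul_assoc, norm_smul, Complex.norm_real,
            Real.norm_eq_abs]
          by_cases hI : c I = 0
          · simp [hI]
          · exact mul_le_mul_of_nonneg_left (hMu U hU S I (hc I hI)) (abs_nonneg _)
      _ = (∑ I, |c I|) * a := by rw [Finset.sum_mul]
      _ ≤ W * a := by gcongr
  have h3 : ‖PP S' * star U * PP S * U * QQ S' r‖ ≤ b := by
    have := hLam (star U) hU.star S' S
    rwa [star_star] at this
  have hX : star (PP S * U * PP S' * star U * QQ S t) * (PP S * U * PP S' * star U * QQ S t) =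
      QQ S t * (U * PP S' * star U) * (PP S * U * Dp * star U * QQ S t)
      - (QQ S t * (U * PP S' * star U) * (PP S * U)) * E1 * (star U * QQ S t)
      - (QQ S t * U) * (PP S' * star U * PP S * U * QQ S' r) * (Dp * (star U * QQ S t)) := by
    have e : PP S * (PP S * (U * (PP S' * (star U * QQ S t)))) =
        PP S * (U * ((Dp - E1 - QQ S' r * Dp) * (star U * QQ S t))) := by
      rw [← mul_assoc, PP_mul_PP, ← hdec]
    simp only [star_mul, star_star, PP_star, QQ_star, mul_assoc]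
    rw [e]
    simp only [mul_sub, sub_mul, mul_assoc]
  have hsq : ‖PP S * U * PP S' * star U * QQ S t‖ ^ 2 ≤ x ^ 2 := by
    rw [sq, ← CStarRing.norm_star_mul_self, hX]
    refine le_trans ?_ hsum
    refine (norm_sub_le _ _).trans (add_le_add ((norm_sub_le _ _).trans (add_le_add ?_ ?_)) ?_)
    · refine (norm_mul_le _ _).trans ?_
      calc _ ≤ 1 * (W * a) := by
            gcongr
            exact norm_mul_le_one (norm_QQ_le _ _) hBn
        _ = W * a := one_mul _
    · refine (norm_mul3_le _ _ _ ?_ ?_).trans hE1n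
      · exact norm_mul_le_one (norm_mul_le_one (norm_QQ_le _ _) hBn)
          (norm_mul_le_one (norm_PP_le _) hUn)
      · exact norm_mul_le_one hUs (norm_QQ_le _ _)
    · refine norm_mul₃_le.trans ?_
      have e1 : ‖QQ S t * U‖ ≤ 1 := norm_mul_le_one (norm_QQ_le _ _) hUn
      have e2 : ‖Dp * (star U * QQ S t)‖ ≤ W := by
        refine (norm_mul_le _ _).trans ?_
        calc _ ≤ W * 1 := by
              gcongr
              exact norm_mul_le_one hUs (norm_QQ_le _ _)
          _ = W := mul_one _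
      calc _ ≤ 1 * b * W := by gcongr
        _ = W * b := by ring
  exact (abs_le_of_sq_le_sq' hsq hx).2

/-- The polynomial step with the explicit polynomial. -/
theorem stepB {N d t l k m : ℕ} {a b x : ℝ} (hN : Fintype.card ι ≤ N) (hl : 2 * N + 5 ≤ 2 ^ l)
    (hk : 1 ≤ k) (hm : 1 ≤ m) (ha : 0 ≤ a) (hb : 0 ≤ b) (hx : 0 ≤ x)
    (hMu : Mu ι d ((l + 2) * m * k) t a) (hLam : Lam ι d (k ^ 2 * m) b)
    (hsum : (2 : ℝ) ^ (l * ((l + 2) * m * k)) * a + ((2 : ℝ) ^ m)⁻¹
      + (2 : ℝ) ^ (l * ((l + 2) * m * k)) * b ≤ x ^ 2) :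
    Lam ι d t x := by
  refine stepB_abstract (Nat.mul_pos (by positivity) hm) (by positivity) ha hb hx (by positivity)
    (fun S => ?_) hMu hLam hsum
  have hS : S.card ≤ N := (Finset.card_le_univ S).trans hN
  obtain ⟨c, p, h1, h2, h3, h4, h5, h6⟩ := Poly.exists_poly S hS hl hk hm
  exact ⟨c, p, h1, h2, h3, fun h a b c => by rw [← inv_pow]; exact h4 h a b (c.trans hS), h5, h6⟩

/-- At depth zero, monomials of degree below `t` cannot create `t` ones. -/
theorem mu_zero {D t : ℕ} (h : D < t) : Mu ι 0 D t 0 := by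
  rintro U ⟨M, hM, rfl⟩ S I hI
  have e : tens M * EE I * star (tens M) =
      tens fun i => if i ∈ I then M i * e1 * star (M i) else 1 := by
    rw [EE_eq_tens, tens_star, tens_mul, tens_mul]
    congr 1
    funext i
    split_ifs with hi
    · rfl
    · rw [mul_one]; exact (Unitary.mem_iff.mp (hM i)).2
  have e2 : PP S * tens M * EE I * star (tens M) * QQ S t = 0 := by
    rw [mul_assoc (PP S), mul_assoc (PP S), e]
    ext y z
    simp only [PP, QQ, Matrix.mul_diagonal, Matrix.diagonal_mul, Matrix.zero_apply]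
    split_ifs with h2 h1
    · have hcard : I.card < (S.filter fun i => z i = 1).card := by
        unfold hw at h1; omega
      obtain ⟨i, hi, hiI⟩ := Finset.exists_mem_notMem_of_card_lt_card hcard
      rw [Finset.mem_filter] at hi
      have hy : y i = 0 := (hw_eq_zero_iff S y).mp h2 i hi.1
      rw [tens_apply, Finset.prod_eq_zero (Finset.mem_univ i)]
      · simp
      · rw [if_neg hiI, hy, hi.2]; simp
    · simp
    · simp
    · simp
  rw [e2, norm_zero]

end Vale.Agent.N368
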