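import Vale.Agent.N368.StepA
import Vale.Agent.N368.StepB
import Vale.Agent.N368.Boot

/-!
The localization bound for all depths and polynomially many qubits.
-/

namespace Vale.Agent.N368

/-- Ratio `2^β` works for at most `2^(M β)` qubits when `β` is large. -/
theorem lam_ratio (d M : ℕ) :
    ∃ β0, ∀ β ≥ β0, ∀ N ≤ 2 ^ (M * β), ∀ s t, 1 ≤ s → 2 ^ β * s ≤ t →
      Lam (Fin N) d t ((2 ^ s)⁻¹) :=
  Boot.lam_all (fun N d t b => Lam (Fin N) d t b) (fun N d D t b => Mu (Fin N) d D t b) 7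
    (fun _ _ _ _ _ h hab => h.mono hab) (fun _ _ _ _ _ _ h hab => h.mono hab)
    (fun N _ _ h => Lam.of_card_lt (by simpa using h)) (fun _ _ _ h => mu_zero h)
    (fun _ _ _ _ _ _ _ h => stepA h)
    (fun N _ _ _ _ _ _ _ _ hl hk hm ha hb hx hMu hLam hsum =>
      stepB (N := N) (by simp) hl hk hm ha hb hx hMu hLam hsum)
    (by norm_num) d M

/-- Quantitative form: accuracy `2^(-s)` for every `s ≤ n^(k/(k+1))`. -/
theorem lam_quant (d e k : ℕ) :
    ∃ n0, ∀ n ≥ n0, ∀ N ≤ n ^ e, ∀ s, 1 ≤ s → s ^ (k + 1) ≤ n ^ k →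
      Lam (Fin N) d n ((2 ^ s)⁻¹) := by
  obtain ⟨β0, hβ0⟩ := lam_ratio d (2 * (k + 1) * e)
  refine ⟨2 ^ ((β0 + 1) * (k + 1)), fun n hn N hN s hs hsn => ?_⟩
  have hn0 : n ≠ 0 := by
    have : 1 ≤ 2 ^ ((β0 + 1) * (k + 1)) := Nat.one_le_two_pow
    omega
  set L := Nat.log 2 n with hL
  have hLge : (β0 + 1) * (k + 1) ≤ L := Nat.le_log_of_pow_le (by norm_num) hn
  have hLle : 2 ^ L ≤ n := Nat.pow_log_le_self 2 hn0
  have hLlt : n < 2 ^ (L + 1) := Nat.lt_pow_succ_log_self (by norm_num) n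
  set β := L / (k + 1) with hβ
  have hβge : β0 + 1 ≤ β := (Nat.le_div_iff_mul_le (Nat.succ_pos k)).mpr hLge
  have hβle : β * (k + 1) ≤ L := Nat.div_mul_le_self _ _
  have hβlt : L < (k + 1) * (β + 1) := Nat.lt_mul_div_succ L (Nat.succ_pos k)
  refine hβ0 β (by omega) N (hN.trans ?_) s n hs ?_
  · calc n ^ e ≤ (2 ^ (L + 1)) ^ e := Nat.pow_le_pow_left hLlt.le _
      _ = 2 ^ ((L + 1) * e) := by rw [← pow_mul]
      _ ≤ 2 ^ (2 * (k + 1) * e * β) := by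
          refine Nat.pow_le_pow_right (by norm_num) ?_
          have h1 : (k + 1) * (β + 1) ≤ (k + 1) * (2 * β) := Nat.mul_le_mul_left _ (by omega)
          calc (L + 1) * e ≤ ((k + 1) * (2 * β)) * e := Nat.mul_le_mul_right _ (by omega)
            _ = 2 * (k + 1) * e * β := by ring
  · have h1 : (2 ^ β * s) ^ (k + 1) ≤ n ^ (k + 1) := by
      calc (2 ^ β * s) ^ (k + 1) = 2 ^ (β * (k + 1)) * s ^ (k + 1) := by rw [mul_pow, ← pow_mul]
        _ ≤ 2 ^ L * n ^ k := Nat.mul_le_mul (Nat.pow_le_pow_right (by norm_num) hβle) hsn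
        _ ≤ n * n ^ k := Nat.mul_le_mul_right _ hLle
        _ = n ^ (k + 1) := by ring
    exact (Nat.pow_le_pow_iff_left (Nat.succ_ne_zero k)).mp h1

/-- Qualitative form: any fixed accuracy. -/
theorem lam_small (d e : ℕ) (c : ℝ) (hc : 0 < c) :
    ∃ n0, ∀ n ≥ n0, ∀ N ≤ n ^ e, Lam (Fin N) d n c := by
  obtain ⟨n0, hn0⟩ := lam_quant d e 1
  obtain ⟨s, hs⟩ := exists_pow_lt_of_lt_one hc (show (1 / 2 : ℝ) < 1 by norm_num)
  refine ⟨n0 + (s + 1) ^ 2, fun n hn N hN => ?_⟩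
  refine (hn0 n (by omega) N hN (s + 1) (by omega) (by rw [pow_one]; exact le_trans (Nat.le_add_left _ _) hn)).mono ?_
  refine le_trans ?_ hs.le
  rw [one_div, inv_pow, pow_succ]
  have : (0 : ℝ) < 2 ^ s := by positivity
  rw [inv_le_inv₀ (by positivity) this]
  linarith

end Vale.Agent.N368
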