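import Vale.Agent.N368.Layer

/-!
# P368: a circuit for fanout prepares the cat state, which is not localized
-/

namespace Vale.Agent.N368

open Matrix Finset Stmt
open scoped Matrix.Norms.L2Operator

theorem entry_PP {ι : Type} [Fintype ι] [DecidableEq ι] (U : Op ι) (t : ℕ) (y : ι → Fin 2)
    (hy : t ≤ hw univ y) :
    (PP univ * U * PP univ * star U * QQ univ t : Op ι) 0 y = U 0 0 * star (U y 0) := by
  have hz : ∀ x : ι → Fin 2, hw univ x = 0 ↔ x = 0 := fun x => by
    rw [hw_eq_zero_iff]
    exact ⟨fun h => funext fun i => h i (mem_univ i), fun h i _ => by rw [h]; rfl⟩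
  rw [QQ, Matrix.mul_diagonal, if_pos hy, mul_one, Matrix.mul_apply, sum_eq_single 0]
  · rw [PP, Matrix.mul_diagonal, Matrix.diagonal_mul, if_pos ((hz 0).2 rfl), one_mul, mul_one,
      Matrix.star_apply]
  · intro b _ hb
    rw [PP, Matrix.mul_diagonal, if_neg fun h => hb ((hz b).1 h), mul_zero, zero_mul]
  · simp

variable {n : ℕ}

theorem pad_zero (C : Circuit n) : C.pad 0 = 0 := by
  funext i
  simp [Circuit.pad]

theorem hw_pad_one (C : Circuit n) : n ≤ hw univ (C.pad 1) := by
  have h : (univ.map (Fin.castLEEmb C.le)) ⊆ univ.filter fun i => C.pad 1 i = 1 := by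
    intro i hi
    obtain ⟨j, -, rfl⟩ := mem_map.1 hi
    simp [Circuit.pad]
  simpa [hw] using card_le_card h

/-- A circuit which implements fanout has `λ(n + 1) ≥ 1 / 2`. -/
theorem half_le_of_fanout (C : Circuit (n + 1)) {d : ℕ} {c : ℝ} (hC : Circ d C.mat)
    (hL : Lam (Fin C.N) d (n + 1) c) (h : C.ImplementsFanout) : 1 / 2 ≤ c := by
  let q : Fin C.N := ⟨n, C.le⟩
  let A : Fin C.N → M2 := Function.update (fun _ => 1) q had
  have hA : IsLoc (tens A) := ⟨A, fun i => by
    by_cases hi : i = q
    · rw [hi]
      simpa [A] using had_mem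
    · simp [A, Function.update_of_ne hi], rfl⟩
  have hq : C.pad (Pi.single (Fin.last n) 1) = Pi.single q 1 := by
    funext i
    by_cases hi : i = q
    · rw [hi]
      simp [Circuit.pad, q, Fin.last]
    · rw [Pi.single_eq_of_ne hi, Circuit.pad]
      split_ifs with h'
      · refine Pi.single_eq_of_ne (fun e => hi (Fin.ext ?_)) _
        simpa using congrArg Fin.val e
      · rfl
  have f0 : fanout (0 : Bits (n + 1)) = 0 := by
    funext i
    simp [fanout]
  have f1 : fanout (Pi.single (Fin.last n) 1 : Bits (n + 1)) = 1 := by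
    funext i
    by_cases hi : i = Fin.last n <;> simp [fanout, hi]
  have ne1 : (Pi.single q 1 : Bits C.N) ≠ 0 := fun e => by simpa using congrFun e q
  have ne2 : C.pad 1 ≠ 0 := fun e => by simpa [Circuit.pad, q] using congrFun e q
  have col : ∀ w : Bits C.N, tens A w 0 =
      if w = 0 ∨ w = Pi.single q 1 then (1 + Complex.I) / 2 else 0 := by
    intro w
    rw [tens_split A q (fun _ _ => 1) fun i hi => by simp [A, Function.update_of_ne hi]]
    have k : (∀ i, i ≠ q → w i = (0 : Bits C.N) i) ↔ w = 0 ∨ w = Pi.single q 1 := by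
      constructor
      · intro hw
        have : ∀ b, w q = b → w = Pi.single q b := fun b hb => funext fun i => by
          by_cases hi : i = q
          · rw [hi, hb, Pi.single_eq_same]
          · rw [hw i hi, Pi.single_eq_of_ne hi]
            rfl
        have h2 : ∀ b : Fin 2, b = 0 ∨ b = 1 := by decide
        rcases h2 (w q) with h2 | h2
        · exact Or.inl (by simpa using this 0 h2)
        · exact Or.inr (this 1 h2)
      · rintro (rfl | rfl) i hi
        · rfl
        · exact Pi.single_eq_of_ne hi _
    simp only [k]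
    split_ifs
    · simp only [A, Function.update_self, prod_const_one, mul_one, Pi.zero_apply]
      generalize w q = b
      fin_cases b <;> simp [had]
    · rfl
  have hU : ∀ z : Bits C.N, (C.mat * tens A) z 0 =
      ((if z = 0 then 1 else 0) + if z = C.pad 1 then 1 else 0) * ((1 + Complex.I) / 2) := by
    intro z
    have a0 := h 0 z
    have a1 := h (Pi.single (Fin.last n) 1) z
    rw [f0, pad_zero] at a0
    rw [f1, hq] at a1
    rw [Matrix.mul_apply, ← a0, ← a1, add_mul,
      ← sum_subset (subset_univ ({0, Pi.single q 1} : Finset (Bits C.N))), sum_pair ne1.symm,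
      col, col, if_pos (Or.inl rfl), if_pos (Or.inr rfl)]
    intro x _ hx
    rw [col, if_neg (by simpa using hx), mul_zero]
  have h1 := (norm_entry_le _ 0 (C.pad 1)).trans (hL _ (hC.mul_loc hA) univ univ)
  rw [entry_PP _ _ _ (hw_pad_one C), hU, hU, if_pos rfl, if_neg ne2.symm, if_neg ne2, if_pos rfl,
    add_zero, zero_add, one_mul] at h1
  have e : (1 + Complex.I) / 2 * star ((1 + Complex.I) / 2) = (1 / 2 : ℂ) := by
    have : star ((1 + Complex.I) / 2) = (1 - Complex.I) / 2 := by simp [sub_eq_add_neg]
    rw [this]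
    simp [Complex.ext_iff]
    norm_num
  rw [e] at h1
  simpa using h1

end Vale.Agent.N368
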