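import Vale.Agent.N368.Defs
import Vale.Agent.N368.Stmt

/-!
# P368: the circuits of the problem are products of local unitaries and layers of sign gates
-/

set_option linter.unusedSectionVars false

namespace Vale.Agent.N368

open Matrix Finset Stmt
open scoped Matrix.Norms.L2Operator

section general

variable {ι : Type} [Fintype ι] [DecidableEq ι]

theorem tens_split (M : ι → M2) (t : ι) (f : ι → Fin 2 → ℂ)
    (h : ∀ i, i ≠ t → M i = diagonal (f i)) (y x : ι → Fin 2) :
    tens M y x = if ∀ i, i ≠ t → y i = x i then M t (y t) (x t) * ∏ i ∈ univ.erase t, f i (x i)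
      else 0 := by
  rw [tens_apply]
  split_ifs with hyx
  · rw [← mul_prod_erase univ _ (mem_univ t)]
    congr 1
    refine prod_congr rfl fun i hi => ?_
    have hi' := ne_of_mem_erase hi
    rw [h i hi', hyx i hi', diagonal_apply_eq]
  · push Not at hyx
    obtain ⟨i, hi, hne⟩ := hyx
    exact prod_eq_zero (mem_univ i) (by rw [h i hi, diagonal_apply_ne _ hne])

theorem commute_tens {M M' : ι → M2} (h : ∀ i, M i = 1 ∨ M' i = 1) :
    Commute (tens M) (tens M') := by
  unfold Commute SemiconjBy
  rw [tens_mul, tens_mul]
  congr 1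
  funext i
  rcases h i with h | h <;> simp [h]

theorem commute_tens_CZ {M : ι → M2} {S : Finset ι} (h : ∀ i ∈ S, M i = 1) :
    Commute (tens M) (CZ S) := by
  have : Commute (tens M) (EE S) := by
    rw [EE_eq_tens]
    refine commute_tens fun i => ?_
    by_cases hi : i ∈ S
    · exact Or.inl (h i hi)
    · exact Or.inr (if_neg hi)
  exact (Commute.one_right _).sub_right (this.smul_right _)

theorem commute_tens_prod {M : ι → M2} {l : List (Finset ι)} (h : ∀ S ∈ l, ∀ i ∈ S, M i = 1) :
    Commute (tens M) (l.map CZ).prod := by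
  refine Commute.list_prod_right _ _ fun x hx => ?_
  obtain ⟨S, hS, rfl⟩ := List.mem_map.1 hx
  exact commute_tens_CZ (h S hS)

/-- `X` is a product of a local unitary, sign gates and a local unitary, all inside `Z`; the sign
gates act on the sets of the list `l`. -/
def Shape (Z : Set ι) (l : List (Finset ι)) (X : Op ι) : Prop :=
  ∃ A B : ι → M2, (∀ i, A i ∈ Matrix.unitaryGroup (Fin 2) ℂ) ∧
    (∀ i, B i ∈ Matrix.unitaryGroup (Fin 2) ℂ) ∧ (∀ i, i ∉ Z → A i = 1) ∧
    (∀ i, i ∉ Z → B i = 1) ∧ l.Pairwise Disjoint ∧ (∀ S ∈ l, ∀ i ∈ S, i ∈ Z) ∧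
    X = tens A * (l.map CZ).prod * tens B

theorem Shape.one : Shape (∅ : Set ι) [] 1 :=
  ⟨fun _ => 1, fun _ => 1, fun _ => one_mem _, fun _ => one_mem _, fun _ _ => rfl, fun _ _ => rfl,
    List.Pairwise.nil, by simp, by simp [tens_one]⟩

theorem Shape.mul {Z Z' : Set ι} {l l' : List (Finset ι)} {X X' : Op ι} (h : Shape Z l X)
    (h' : Shape Z' l' X') (hZ : Disjoint Z Z') : Shape (Z ∪ Z') (l ++ l') (X * X') := by
  obtain ⟨A, B, a1, b1, a2, b2, p, s, rfl⟩ := h
  obtain ⟨A', B', a1', b1', a2', b2', p', s', rfl⟩ := h'
  have d1 : ∀ i, i ∈ Z → i ∉ Z' := fun i hi => Set.disjoint_left.1 hZ hi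
  refine ⟨fun i => A i * A' i, fun i => B i * B' i, fun i => mul_mem (a1 i) (a1' i),
    fun i => mul_mem (b1 i) (b1' i), fun i hi => ?_, fun i hi => ?_, ?_, fun S hS i hi => ?_, ?_⟩
  · show A i * A' i = 1
    rw [a2 i fun h => hi (Or.inl h), a2' i fun h => hi (Or.inr h), mul_one]
  · show B i * B' i = 1
    rw [b2 i fun h => hi (Or.inl h), b2' i fun h => hi (Or.inr h), mul_one]
  · refine List.pairwise_append.2 ⟨p, p', fun S hS S' hS' => ?_⟩
    exact Finset.disjoint_left.2 fun i hi hi' => d1 i (s S hS i hi) (s' S' hS' i hi')
  · rcases List.mem_append.1 hS with h | h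
    · exact Or.inl (s S h i hi)
    · exact Or.inr (s' S h i hi)
  · have c1 : Commute (tens B) (tens A') := commute_tens fun i => by
      by_cases hi : i ∈ Z
      · exact Or.inr (a2' i (d1 i hi))
      · exact Or.inl (b2 i hi)
    have c2 : Commute (tens A') (l.map CZ).prod :=
      commute_tens_prod fun S hS i hi => a2' i (d1 i (s S hS i hi))
    have c3 : Commute (tens B) (l'.map CZ).prod :=
      commute_tens_prod fun S hS i hi => b2 i fun h => d1 i h (s' S hS i hi)
    rw [← tens_mul, ← tens_mul, List.map_append, List.prod_append]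
    calc tens A * (l.map CZ).prod * tens B * (tens A' * (l'.map CZ).prod * tens B')
        = tens A * ((l.map CZ).prod * (tens B * tens A')) * (l'.map CZ).prod * tens B' := by
          simp only [mul_assoc]
      _ = tens A * (tens A' * (l.map CZ).prod) * (tens B * (l'.map CZ).prod) * tens B' := by
          rw [c1.eq, c2.eq]
          simp only [mul_assoc]
      _ = _ := by
          rw [c3.eq]
          simp only [mul_assoc]

theorem Shape.circ_mul {Z : Set ι} {l : List (Finset ι)} {X V : Op ι} {d : ℕ} (h : Shape Z l X)
    (hV : Circ d V) : Circ (d + 1) (V * X) := by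
  obtain ⟨A, B, a1, b1, -, -, p, -, rfl⟩ := h
  exact ⟨V * tens A, _, tens B, hV.mul_loc ⟨A, a1, rfl⟩, ⟨l, p, rfl⟩, ⟨B, b1, rfl⟩,
    by simp only [mul_assoc]⟩

theorem Shape.isLoc {Z : Set ι} {X : Op ι} (h : Shape Z [] X) : IsLoc X := by
  obtain ⟨A, B, a1, b1, -, -, -, -, rfl⟩ := h
  simpa using IsLoc.mul ⟨A, a1, rfl⟩ ⟨B, b1, rfl⟩

end general

/-- The Hadamard matrix times a phase. -/
noncomputable def had : M2 :=
  !![(1 + Complex.I) / 2, (1 + Complex.I) / 2; (1 + Complex.I) / 2, -(1 + Complex.I) / 2]

theorem star_had : star had =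
    !![(1 - Complex.I) / 2, (1 - Complex.I) / 2; (1 - Complex.I) / 2, -(1 - Complex.I) / 2] := by
  ext i j
  fin_cases i <;> fin_cases j <;>
    simp [had, Matrix.star_apply, sub_eq_add_neg]

theorem had_mem : had ∈ Matrix.unitaryGroup (Fin 2) ℂ := by
  rw [Matrix.mem_unitaryGroup_iff, star_had]
  ext i j
  fin_cases i <;> fin_cases j <;>
    simp [had, Matrix.mul_apply, Fin.sum_univ_two, Complex.ext_iff] <;> norm_num

theorem had_e1 : had * e1 * star had = !![1 / 2, -1 / 2; -1 / 2, 1 / 2] := by
  have h : e1 = !![0, 0; 0, 1] := by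
    ext i j
    fin_cases i <;> fin_cases j <;> simp [e1]
  rw [star_had, h]
  ext i j
  fin_cases i <;> fin_cases j <;>
    simp [had, Matrix.mul_apply, Fin.sum_univ_two, Complex.ext_iff] <;> norm_num

theorem prod_bits {ι : Type} (S : Finset ι) (x : ι → Fin 2) :
    ∏ i ∈ S, x i = if ∀ i ∈ S, x i = 1 then 1 else 0 := by
  split_ifs with h
  · exact prod_eq_one h
  · push Not at h
    obtain ⟨i, hi, hx⟩ := h
    classical
    rw [← mul_prod_erase S x hi]
    revert hx
    generalize x i = a
    generalize ∏ j ∈ S.erase i, x j = b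
    revert a b
    decide

variable {N : ℕ}

/-- The sets on which the sign gates of a gate act. -/
def czs : Gate N → List (Finset (Fin N))
  | .one _ _ => []
  | .toffoli ctrl tgt _ _ => [insert tgt ctrl]

theorem shape_gate (g : Gate N) : Shape (g.support : Set (Fin N)) (czs g) g.mat := by
  cases g with
  | one q u =>
    refine ⟨Function.update (fun _ => 1) q u.1, fun _ => 1, fun i => ?_, fun _ => one_mem _,
      fun i hi => ?_, fun _ _ => rfl, List.Pairwise.nil, by simp [czs], ?_⟩
    · by_cases h : i = q
      · subst h
        simp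
      · simp [Function.update_of_ne h]
    · exact Function.update_of_ne (by simpa [Gate.support] using hi) _ _
    · ext y x
      rw [tens_one, czs, List.map_nil, List.prod_nil, mul_one, mul_one,
        tens_split _ q (fun _ _ => 1) fun i hi => by simp [Function.update_of_ne hi]]
      simp [Gate.mat]
  | toffoli c t hc ht =>
    have hu : ∀ (V : M2), V ∈ Matrix.unitaryGroup (Fin 2) ℂ → ∀ i,
        Function.update (fun _ : Fin N => (1 : M2)) t V i ∈ Matrix.unitaryGroup (Fin 2) ℂ := by
      intro V hV i
      by_cases h : i = t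
      · subst h
        simpa using hV
      · simp [Function.update_of_ne h]
    have ho : ∀ (V : M2) i, i ∉ ((Gate.toffoli c t hc ht).support : Set (Fin N)) →
        Function.update (fun _ : Fin N => (1 : M2)) t V i = 1 := fun V i hi =>
      Function.update_of_ne (fun h => hi (by simp [Gate.support, h])) _ _
    refine ⟨Function.update (fun _ => 1) t had, Function.update (fun _ => 1) t (star had),
      hu _ had_mem, hu _ (Unitary.star_mem had_mem), ho _, ho _, List.pairwise_singleton _ _,
      by simp [czs, Gate.support], ?_⟩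
    have e1' : tens (Function.update (fun _ : Fin N => (1 : M2)) t had) *
        tens (Function.update (fun _ : Fin N => (1 : M2)) t (star had)) = 1 := by
      rw [tens_mul, ← tens_one]
      congr 1
      funext i
      by_cases h : i = t
      · subst h
        simpa using (Unitary.mem_iff.1 had_mem).2
      · simp [Function.update_of_ne h]
    rw [czs, List.map_singleton, List.prod_singleton, CZ, mul_sub, sub_mul, mul_one, e1',
      mul_smul_comm, smul_mul_assoc, EE_eq_tens, tens_mul, tens_mul]
    ext y x
    rw [Matrix.sub_apply, Matrix.smul_apply,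
      tens_split _ t (fun i a => if i ∈ c then (if a = 1 then 1 else 0) else 1) fun i hi => by
        by_cases h : i ∈ c <;> simp [h, hi, e1]]
    have hp : ∏ i ∈ univ.erase t, (if i ∈ c then (if x i = 1 then (1 : ℂ) else 0) else 1) =
        if ∀ i ∈ c, x i = 1 then 1 else 0 := by
      split_ifs with h
      · refine prod_eq_one fun i _ => ?_
        split_ifs with h1 h2
        · rfl
        · exact absurd (h i h1) h2
        · rfl
      · push Not at h
        obtain ⟨i, hi, hx⟩ := h
        exact prod_eq_zero (mem_erase.2 ⟨fun e => ht (e ▸ hi), mem_univ i⟩) (by simp [hi, hx])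
    simp only [Function.update_self, mem_insert_self, if_true, had_e1, hp, Gate.mat,
      Matrix.of_apply, prod_bits, Matrix.one_apply]
    by_cases hyx : ∀ i, i ≠ t → y i = x i
    · have k1 : ∀ b, y = Function.update x t b ↔ y t = b := fun b =>
        ⟨fun h => by rw [h, Function.update_self], fun h => funext fun i => by
          by_cases hi : i = t
          · rw [hi, h, Function.update_self]
          · rw [Function.update_of_ne hi, hyx i hi]⟩
      have k2 : y = x ↔ y t = x t := by
        have := k1 (x t)
        rwa [Function.update_eq_self] at this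
      rw [if_pos hyx]
      simp only [k1, k2]
      generalize y t = a
      generalize x t = b
      by_cases hall : ∀ i ∈ c, x i = 1
      · rw [if_pos hall, if_pos hall]
        fin_cases a <;> fin_cases b <;> simp <;> norm_num
      · rw [if_neg hall, if_neg hall]
        simp
    · rw [if_neg hyx, if_neg, if_neg]
      · simp
      · rintro rfl
        exact hyx fun _ _ => rfl
      · rintro rfl
        exact hyx fun i hi => Function.update_of_ne hi _ _

theorem shape_list (gs : List (Gate N)) (h : gs.Pairwise fun g h => Disjoint g.support h.support) :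
    Shape {i | ∃ g ∈ gs, i ∈ g.support} (gs.flatMap czs) (gs.map Gate.mat).prod := by
  induction gs with
  | nil => simpa using Shape.one
  | cons g gs ih =>
    obtain ⟨h1, h2⟩ := List.pairwise_cons.1 h
    have := (shape_gate g).mul (ih h2) (Set.disjoint_left.2 fun i hi ⟨g', hg', hi'⟩ =>
      Finset.disjoint_left.1 (h1 g' hg') hi hi')
    rw [List.flatMap_cons, List.map_cons, List.prod_cons]
    convert this using 1
    ext i
    simp

theorem circ_layers (ls : List (Layer N)) :
    Circ (ls.countP fun L => L.gates.any Gate.isMulti) (ls.reverse.map Layer.mat).prod := by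
  induction ls with
  | nil => simpa [Circ] using IsLoc.one
  | cons L ls ih =>
    have hs := shape_list L.gates L.disjoint
    rw [List.reverse_cons, List.map_append, List.prod_append, List.map_singleton,
      List.prod_singleton, List.countP_cons]
    split_ifs with h
    · exact hs.circ_mul ih
    · have e : L.gates.flatMap czs = [] := by
        rw [List.flatMap_eq_nil_iff]
        intro g hg
        cases g with
        | one q u => rfl
        | toffoli c t hc ht => exact absurd (List.any_eq_true.2 ⟨_, hg, rfl⟩) h
      rw [e] at hs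
      exact ih.mul_loc hs.isLoc

variable {n : ℕ}

/-- A circuit of the problem is in the class `Circ` of its entangling depth. -/
theorem circ_mat (C : Circuit n) : Circ C.entanglingDepth C.mat := circ_layers C.layers

theorem entanglingDepth_le (C : Circuit n) : C.entanglingDepth ≤ C.depth := List.countP_le_length

end Vale.Agent.N368
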