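import Mathlib

/-!
Arithmetic: from the ratio form of the localization bound to a stretched exponential bound.
-/

namespace Vale.Agent.N368.Quant

/-- If the ratio `2^β` works for at most `2^(M β)` qubits, then for polynomially many qubits and
threshold `n` an accuracy `2^(-s)` with `2 * 2^(-s) ≤ exp (-n^(1-δ))` is reached. -/
theorem stretched (Lam : ℕ → ℕ → ℝ → Prop)
    (h : ∀ M, ∃ β0, ∀ β ≥ β0, ∀ N ≤ 2 ^ (M * β), ∀ s t, 1 ≤ s → 2 ^ β * s ≤ t →
      Lam N t ((2 ^ s)⁻¹)) (e : ℕ) {δ : ℝ} (hδ : 0 < δ) :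
    ∃ n0, ∀ n ≥ n0, ∀ N ≤ n ^ e, ∃ s : ℕ, Lam N n ((2 ^ s)⁻¹) ∧
      2 * ((2 : ℝ) ^ s)⁻¹ ≤ Real.exp (-(n : ℝ) ^ (1 - δ)) := by
  obtain ⟨m, hm⟩ := exists_nat_gt (2 / δ)
  have hmpos : (0 : ℝ) < m := lt_trans (by positivity) hm
  have hm0 : 0 < m := by exact_mod_cast hmpos
  -- we work with the exponent `1 / (2 m + 2)`
  set k := 2 * m + 2 with hk
  obtain ⟨β0, hβ0⟩ := h (2 * k * e)
  refine ⟨2 ^ (k * (β0 + 3)), fun n hn N hN => ?_⟩
  have hn0 : n ≠ 0 := by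
    have : 1 ≤ 2 ^ (k * (β0 + 3)) := Nat.one_le_two_pow
    omega
  set L := Nat.log 2 n with hL
  have hLge : k * (β0 + 3) ≤ L := Nat.le_log_of_pow_le (by norm_num) hn
  have hLle : 2 ^ L ≤ n := Nat.pow_log_le_self 2 hn0
  have hLlt : n < 2 ^ (L + 1) := Nat.lt_pow_succ_log_self (by norm_num) n
  have hk0 : 0 < k := by omega
  set β := L / k with hβ
  have hβge : β0 + 3 ≤ β := (Nat.le_div_iff_mul_le hk0).mpr (by rw [mul_comm]; exact hLge)
  have hβk : β * k ≤ L := Nat.div_mul_le_self _ _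
  have hLβ : L < k * (β + 1) := Nat.lt_mul_div_succ L hk0
  have hL1 : L + 1 ≤ 2 * k * β := by
    have h2 : k * (β + 1) ≤ k * (2 * β) := Nat.mul_le_mul_left _ (by omega)
    calc L + 1 ≤ k * (2 * β) := le_trans hLβ h2
      _ = 2 * k * β := by ring
  -- the accuracy exponent
  set s := 2 ^ (L - β) with hs
  have hβL : 2 * β ≤ L := by
    have : β * 2 ≤ β * k := Nat.mul_le_mul_left _ (by omega)
    omega
  refine ⟨s, hβ0 β (by omega) N (hN.trans ?_) s n Nat.one_le_two_pow ?_, ?_⟩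
  · calc n ^ e ≤ (2 ^ (L + 1)) ^ e := Nat.pow_le_pow_left hLlt.le _
      _ = 2 ^ ((L + 1) * e) := by rw [← pow_mul]
      _ ≤ 2 ^ (2 * k * e * β) := by
          refine Nat.pow_le_pow_right (by norm_num) ?_
          calc (L + 1) * e ≤ (2 * k * β) * e := Nat.mul_le_mul_right _ hL1
            _ = 2 * k * e * β := by ring
  · rw [hs, ← pow_add]
    calc 2 ^ (β + (L - β)) = 2 ^ L := by congr 1; omega
      _ ≤ n := hLle
  · -- `n^(1-δ) ≤ 2^(L - β - 2) = s / 4`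
    have hnpos : (0 : ℝ) < n := by exact_mod_cast Nat.pos_of_ne_zero hn0
    have hn1 : (1 : ℝ) ≤ n := by exact_mod_cast Nat.pos_of_ne_zero hn0
    have hδm : 2 < δ * m := by
      rw [div_lt_iff₀ hδ] at hm; linarith
    have hlog : (2 : ℝ) ^ (L : ℝ) ≤ n := by
      rw [Real.rpow_natCast]; exact_mod_cast hLle
    have hδL : (β : ℝ) + 3 ≤ δ * L := by
      have h1 : (β : ℝ) * k ≤ L := by exact_mod_cast hβk
      have h2 : (k : ℝ) = 2 * m + 2 := by rw [hk]; push_cast; ring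
      have h3 : (3 : ℝ) ≤ β := by exact_mod_cast (show 3 ≤ β by omega)
      have h4 : δ * ((β : ℝ) * k) ≤ δ * L := mul_le_mul_of_nonneg_left h1 hδ.le
      have h5 : δ * ((β : ℝ) * k) = β * (2 * (δ * m) + 2 * δ) := by rw [h2]; ring
      nlinarith
    have hnδ : (2 : ℝ) ^ ((β : ℝ) + 3) ≤ (n : ℝ) ^ δ := by
      calc (2 : ℝ) ^ ((β : ℝ) + 3) ≤ 2 ^ (δ * L) :=
            Real.rpow_le_rpow_of_exponent_le (by norm_num) hδL
        _ = (2 ^ (L : ℝ)) ^ δ := by rw [← Real.rpow_mul (by norm_num), mul_comm]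
        _ ≤ (n : ℝ) ^ δ := Real.rpow_le_rpow (by positivity) hlog hδ.le
    have hnδ' : (2 : ℝ) ^ (β + 3) ≤ (n : ℝ) ^ δ := by
      rw [← Real.rpow_natCast]; push_cast; exact hnδ
    have hsL : (s : ℝ) * 2 ^ β = 2 ^ L := by
      rw [hs]; push_cast; rw [← pow_add]; congr 1; omega
    have hnlt : (n : ℝ) ≤ 2 ^ (L + 1) := by exact_mod_cast hLlt.le
    have hkey : (n : ℝ) ^ (1 - δ) ≤ s / 4 := by
      rw [Real.rpow_sub hnpos, Real.rpow_one, div_le_iff₀ (by positivity)]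
      calc (n : ℝ) ≤ 2 ^ (L + 1) := hnlt
        _ = s / 4 * 2 ^ (β + 3) := by rw [pow_succ, ← hsL]; ring
        _ ≤ s / 4 * (n : ℝ) ^ δ := mul_le_mul_of_nonneg_left hnδ' (by positivity)
    have hs4 : (4 : ℝ) ≤ s := by
      have : 2 ^ 2 ≤ 2 ^ (L - β) := Nat.pow_le_pow_right (by norm_num) (by omega)
      rw [hs]; exact_mod_cast this
    have hlog2 : (1 / 2 : ℝ) < Real.log 2 := by
      have := Real.log_two_gt_d9; linarith
    have h2 : 2 * ((2 : ℝ) ^ s)⁻¹ = Real.exp (-((s - 1) * Real.log 2)) := by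
      rw [show -(((s : ℝ) - 1) * Real.log 2) = Real.log 2 + -(s * Real.log 2) by ring,
        Real.exp_add, Real.exp_neg, Real.exp_log (by norm_num), Real.exp_nat_mul,
        Real.exp_log (by norm_num)]
    rw [h2]
    refine Real.exp_le_exp.mpr (neg_le_neg (hkey.trans ?_))
    nlinarith

end Vale.Agent.N368.Quant
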