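import Vale.Agent.N368.StepA
import Vale.Agent.N368.StepB
import Vale.Agent.N368.Boot
import Vale.Agent.N368.Quant
import Vale.Agent.N368.Layer
import Vale.Agent.N368.Bridge

/-!
Assembly of the localization proof: the stretched exponential correlation bound and its
consequences for families of circuits.
-/

namespace Vale.Agent.N368.Main

open Vale.Agent.N368 Vale.Agent.N368.Stmt Filter Topology

/-- The localization bound with ratio `2^β` on at most `2^(M β)` qubits. -/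
theorem lam_ratio (d : ℕ) :
    ∀ M, ∃ β0, ∀ β ≥ β0, ∀ N ≤ 2 ^ (M * β), ∀ s t, 1 ≤ s → 2 ^ β * s ≤ t →
      Lam (Fin N) d t ((2 ^ s)⁻¹) :=
  Boot.lam_all (fun N d t b => Lam (Fin N) d t b) (fun N d D t b => Mu (Fin N) d D t b) 7
    (fun _ _ _ _ _ h hab => h.mono hab) (fun _ _ _ _ _ _ h hab => h.mono hab)
    (fun N _ _ h => Lam.of_card_lt (by rwa [Fintype.card_fin]))
    (fun _ _ _ h => mu_zero h) (fun _ _ _ _ _ _ _ h => stepA h)
    (fun N _ _ _ _ _ _ _ _ hl hk hm ha hb hx hMu hLam hsum =>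
      stepB (N := N) (by rw [Fintype.card_fin]) hl hk hm ha hb hx hMu hLam hsum)
    (by norm_num) d

/-- The localization bound at threshold `n` for polynomially many qubits. -/
theorem lam_stretched (d e : ℕ) {δ : ℝ} (hδ : 0 < δ) :
    ∃ n0, ∀ n ≥ n0, ∀ N ≤ n ^ e, ∃ c : ℝ, Lam (Fin N) d n c ∧
      2 * c ≤ Real.exp (-(n : ℝ) ^ (1 - δ)) := by
  obtain ⟨n0, h⟩ := Quant.stretched (fun N t b => Lam (Fin N) d t b) (lam_ratio d) e hδ
  refine ⟨n0, fun n hn N hN => ?_⟩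
  obtain ⟨s, h1, h2⟩ := h n hn N hN
  exact ⟨_, h1, h2⟩

/-- The parity correlation of polynomial size circuits of bounded entangling depth. -/
theorem correlation_le (d e : ℕ) (δ : ℝ) (hδ : 0 < δ) :
    ∃ n0 : ℕ, ∀ n ≥ n0, ∀ C : Circuit n, C.entanglingDepth ≤ d → C.N ≤ n ^ e →
      |C.correlation| ≤ Real.exp (-(n : ℝ) ^ (1 - δ)) := by
  obtain ⟨n0, h⟩ := lam_stretched d e hδ
  refine ⟨n0 + 1, fun n hn C hd hN => ?_⟩
  obtain ⟨c, h1, h2⟩ := h n (by omega) C.N hN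
  exact (Bridge.correlation_le (by omega) C ((circ_mat C).mono hd) h1).trans h2

/-- A polynomial with natural coefficients is eventually below a power. -/
theorem poly_le_pow (p : Polynomial ℕ) : ∃ e n0 : ℕ, ∀ n ≥ n0, p.eval n ≤ n ^ e := by
  refine ⟨p.natDegree + 1, ∑ i ∈ Finset.range (p.natDegree + 1), p.coeff i + 1, fun n hn => ?_⟩
  have hn1 : 1 ≤ n := by omega
  rw [Polynomial.eval_eq_sum_range]
  calc ∑ i ∈ Finset.range (p.natDegree + 1), p.coeff i * n ^ i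
      ≤ ∑ i ∈ Finset.range (p.natDegree + 1), p.coeff i * n ^ p.natDegree := by
        refine Finset.sum_le_sum fun i hi => Nat.mul_le_mul_left _ ?_
        exact Nat.pow_le_pow_right hn1 (Nat.lt_succ_iff.mp (Finset.mem_range.mp hi))
    _ = (∑ i ∈ Finset.range (p.natDegree + 1), p.coeff i) * n ^ p.natDegree := by
        rw [Finset.sum_mul]
    _ ≤ n * n ^ p.natDegree := Nat.mul_le_mul_right _ (by omega)
    _ = n ^ (p.natDegree + 1) := by ring

/-- For every accuracy `ε`, the localization bound eventually holds along a QAC0 family. -/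
theorem family_lam {C : ∀ n, Circuit n} (hC : IsQAC0 C) {ε : ℝ} (hε : 0 < ε) :
    ∃ n0 : ℕ, ∀ n ≥ n0, ∃ (d : ℕ) (c : ℝ), Circ d (C n).mat ∧ Lam (Fin (C n).N) d n c ∧ c < ε := by
  obtain ⟨⟨d, hd⟩, p, hp⟩ := hC
  obtain ⟨e, n1, he⟩ := poly_le_pow p
  obtain ⟨n2, h⟩ := lam_stretched d e (show (0 : ℝ) < 1 / 2 by norm_num)
  have ht : Tendsto (fun n : ℕ => Real.exp (-(n : ℝ) ^ (1 - 1 / 2 : ℝ))) atTop (𝓝 0) :=
    Real.tendsto_exp_neg_atTop_nhds_zero.comp
      ((tendsto_rpow_atTop (by norm_num)).comp tendsto_natCast_atTop_atTop)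
  obtain ⟨n3, h3⟩ := eventually_atTop.mp (ht.eventually (gt_mem_nhds hε))
  refine ⟨n1 + n2 + n3, fun n hn => ?_⟩
  obtain ⟨c, h1, h2⟩ := h n (by omega) (C n).N ((hp n).trans (he n (by omega)))
  refine ⟨d, c, (circ_mat (C n)).mono ((entanglingDepth_le _).trans (hd n)), h1, ?_⟩
  have h4 := h3 n (by omega)
  have h5 := Real.exp_pos (-(n : ℝ) ^ (1 - 1 / 2 : ℝ))
  linarith

/-- A QAC0 family fails to have advantage `ε` for all large input lengths. -/
theorem eventually_not_parity (C : ∀ n, Circuit n) (hC : IsQAC0 C) (ε : ℝ) (hε : 0 < ε) :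
    ∃ n0 : ℕ, ∀ n ≥ n0, ¬ (C n).ComputesParity ε := by
  obtain ⟨n0, h⟩ := family_lam hC hε
  refine ⟨n0 + 1, fun n hn hpar => ?_⟩
  obtain ⟨d, c, h1, h2, h3⟩ := h n (by omega)
  exact absurd (Bridge.advantage_le (by omega) (C n) h1 h2 hpar) (not_le.mpr h3)

end Vale.Agent.N368.Main
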