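import Vale.Agent.N368.Defs

/-!
The monomial step of the localization proof: a monomial of degree `D` meets at most `D` gates of
the innermost layer.
-/

set_option linter.unusedSectionVars false

namespace Vale.Agent.N368

open Matrix Finset
open scoped Matrix.Norms.L2Operator

variable {ι : Type} [Fintype ι] [DecidableEq ι]

/-- The identity or a rank one projection. -/
def IsPr (m : M2) : Prop :=
  ∃ w ∈ Matrix.unitaryGroup (Fin 2) ℂ, ∃ β : Bool, m = w * (if β then e0 else 1) * star w

theorem isPr_one : IsPr 1 := ⟨1, one_mem _, false, by simp⟩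

theorem isPr_e0 : IsPr e0 := ⟨1, one_mem _, true, by simp⟩

theorem conj_e0_apply (w : M2) (a b : Fin 2) :
    (w * (if true then e0 else 1) * star w) a b = w a 0 * star (w b 0) := by
  rw [if_pos rfl, Matrix.mul_apply, Fin.sum_univ_two]
  simp only [e0, Matrix.mul_diagonal, Matrix.star_apply]
  simp

theorem isPr_e1 : IsPr e1 := by
  refine ⟨!![0, 1; 1, 0], ?_, true, ?_⟩
  · rw [Matrix.mem_unitaryGroup_iff]
    ext a b
    fin_cases a <;> fin_cases b <;> simp [Matrix.mul_apply, Fin.sum_univ_two]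
  · ext a b
    rw [conj_e0_apply]
    fin_cases a <;> fin_cases b <;> simp [e1]

/-- Projection on the plus state. -/
noncomputable def pX : M2 := !![1 / 2, 1 / 2; 1 / 2, 1 / 2]

/-- Projection on an eigenstate of the Pauli `Y`. -/
noncomputable def pY : M2 := !![1 / 2, Complex.I / 2; -Complex.I / 2, 1 / 2]

theorem isPr_pX : IsPr pX := by
  refine ⟨!![(1 + Complex.I) / 2, (1 + Complex.I) / 2; (1 + Complex.I) / 2, -(1 + Complex.I) / 2],
    ?_, true, ?_⟩
  · rw [Matrix.mem_unitaryGroup_iff]
    ext a b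
    fin_cases a <;> fin_cases b <;>
      simp [Matrix.mul_apply, Fin.sum_univ_two, Complex.ext_iff, map_ofNat] <;> norm_num
  · ext a b
    rw [conj_e0_apply]
    fin_cases a <;> fin_cases b <;> simp [pX, Complex.ext_iff] <;> norm_num

theorem isPr_pY : IsPr pY := by
  refine ⟨!![(1 + Complex.I) / 2, (1 - Complex.I) / 2; (1 - Complex.I) / 2, (1 + Complex.I) / 2],
    ?_, true, ?_⟩
  · rw [Matrix.mem_unitaryGroup_iff]
    ext a b
    fin_cases a <;> fin_cases b <;>
      simp [Matrix.mul_apply, Fin.sum_univ_two, Complex.ext_iff, map_ofNat] <;> norm_num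
  · ext a b
    rw [conj_e0_apply]
    fin_cases a <;> fin_cases b <;> simp [pY, Complex.ext_iff] <;> norm_num

theorem M2_decomp (m : M2) :
    m = (m 1 1 - (m 0 1 + m 1 0) / 2 - Complex.I * (m 1 0 - m 0 1) / 2) • (1 : M2)
      + (m 0 0 - m 1 1) • e0 + (m 0 1 + m 1 0) • pX + (Complex.I * (m 1 0 - m 0 1)) • pY := by
  ext a b
  fin_cases a <;> fin_cases b <;> simp [e0, pX, pY]
  · ring
  · linear_combination ((m 0 1 - m 1 0) / 2) * Complex.I_mul_I
  · linear_combination ((m 1 0 - m 0 1) / 2) * Complex.I_mul_I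
  · ring

theorem tens_update_apply (M : ι → M2) (i : ι) (m : M2) (x y : ι → Fin 2) :
    tens (Function.update M i m) x y =
      m (x i) (y i) * ∏ j ∈ Finset.univ.erase i, M j (x j) (y j) := by
  rw [tens_apply, ← Finset.mul_prod_erase _ _ (Finset.mem_univ i), Function.update_self]
  congr 1
  refine Finset.prod_congr rfl fun j hj => ?_
  rw [Function.update_of_ne (Finset.ne_of_mem_erase hj)]

theorem tens_update_lin (M : ι → M2) (i : ι) (a b c d : ℂ) (m1 m2 m3 m4 : M2) :
    tens (Function.update M i (a • m1 + b • m2 + c • m3 + d • m4)) =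
      a • tens (Function.update M i m1) + b • tens (Function.update M i m2)
        + c • tens (Function.update M i m3) + d • tens (Function.update M i m4) := by
  ext x y
  simp only [tens_update_apply, Matrix.add_apply, Matrix.smul_apply, smul_eq_mul]
  ring

section Fixed

variable {A B : Op ι} {b : ℝ}

theorem stepA0 (hg : ∀ W : Op ι, IsLoc W → ∀ S' : Finset ι, ‖A * (W * PP S' * star W) * B‖ ≤ b)
    (M : ι → M2) (hM : ∀ i, IsPr (M i)) : ‖A * tens M * B‖ ≤ b := by
  choose w hw β hβ using hM
  have := hg (tens w) ⟨w, hw, rfl⟩ (Finset.univ.filter fun i => β i = true)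
  rw [PP_eq_tens, tens_star, tens_mul, tens_mul] at this
  have e : M = fun i => w i * (if i ∈ (Finset.univ.filter fun i => β i = true) then e0 else 1) *
      star (w i) := by
    funext i
    rw [hβ i]
    simp
  rw [e]
  exact this

theorem norm_lin4_le (X1 X2 X3 X4 : Op ι) (a1 a2 a3 a4 : ℂ) {β : ℝ}
    (h1 : ‖A * X1 * B‖ ≤ β) (h2 : ‖A * X2 * B‖ ≤ β) (h3 : ‖A * X3 * B‖ ≤ β)
    (h4 : ‖A * X4 * B‖ ≤ β) (ha : ‖a1‖ + ‖a2‖ + ‖a3‖ + ‖a4‖ ≤ 9) :
    ‖A * (a1 • X1 + a2 • X2 + a3 • X3 + a4 • X4) * B‖ ≤ 9 * β := by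
  have hβ : 0 ≤ β := (norm_nonneg _).trans h1
  simp only [mul_add, add_mul, mul_smul_comm, smul_mul_assoc]
  calc _ ≤ ‖a1 • (A * X1 * B)‖ + ‖a2 • (A * X2 * B)‖ + ‖a3 • (A * X3 * B)‖
        + ‖a4 • (A * X4 * B)‖ := norm_add₄_le
    _ ≤ ‖a1‖ * β + ‖a2‖ * β + ‖a3‖ * β + ‖a4‖ * β := by
        simp only [norm_smul]
        gcongr
    _ = (‖a1‖ + ‖a2‖ + ‖a3‖ + ‖a4‖) * β := by ring
    _ ≤ 9 * β := by gcongr

theorem stepA1 (hg : ∀ W : Op ι, IsLoc W → ∀ S' : Finset ι, ‖A * (W * PP S' * star W) * B‖ ≤ b)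
    (I : Finset ι) : ∀ M : ι → M2, (∀ i ∉ I, IsPr (M i)) → (∀ i ∈ I, ∀ u v, ‖M i u v‖ ≤ 1) →
      ‖A * tens M * B‖ ≤ 9 ^ I.card * b := by
  induction I using Finset.induction_on with
  | empty =>
    intro M hM _
    simpa using stepA0 hg M fun i => hM i (Finset.notMem_empty i)
  | insert i I hi ih =>
    intro M hM hM'
    have key : ∀ m : M2, IsPr m → ‖A * tens (Function.update M i m) * B‖ ≤ 9 ^ I.card * b := by
      intro m hm
      refine ih _ (fun j hj => ?_) (fun j hj u v => ?_)
      · by_cases hji : j = i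
        · rw [hji, Function.update_self]; exact hm
        · rw [Function.update_of_ne hji]
          exact hM j (by simp [hji, hj])
      · rw [Function.update_of_ne (by rintro rfl; exact hi hj)]
        exact hM' j (Finset.mem_insert_of_mem hj) u v
    have e : M = Function.update M i (M i) := (Function.update_eq_self i M).symm
    rw [e, M2_decomp (M i), tens_update_lin, Finset.card_insert_of_notMem hi, pow_succ',
      mul_assoc (9 : ℝ)]
    refine norm_lin4_le _ _ _ _ _ _ _ _ (key _ isPr_one) (key _ isPr_e0) (key _ isPr_pX)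
      (key _ isPr_pY) ?_
    have h := hM' i (Finset.mem_insert_self i I)
    have g1 : ‖M i 0 1 + M i 1 0‖ ≤ 2 := (norm_add_le _ _).trans (by linarith [h 0 1, h 1 0])
    have g2 : ‖Complex.I * (M i 1 0 - M i 0 1)‖ ≤ 2 := by
      rw [norm_mul, Complex.norm_I, one_mul]
      exact (norm_sub_le _ _).trans (by linarith [h 0 1, h 1 0])
    have g3 : ‖M i 0 0 - M i 1 1‖ ≤ 2 := (norm_sub_le _ _).trans (by linarith [h 0 0, h 1 1])
    have g4 : ‖M i 1 1 - (M i 0 1 + M i 1 0) / 2 - Complex.I * (M i 1 0 - M i 0 1) / 2‖ ≤ 3 := by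
      refine (norm_sub_le _ _).trans ?_
      refine (add_le_add_left (norm_sub_le _ _) _).trans ?_
      rw [norm_div, norm_div, Complex.norm_two]
      linarith [h 1 1]
    linarith

/-- Product operators that are `1` or `e1` off `I` and have bounded entries on `I`. -/
def Cls (I : Finset ι) (M : ι → M2) : Prop :=
  (∀ i ∉ I, M i = 1 ∨ M i = e1) ∧ ∀ i ∈ I, ∀ u v, ‖M i u v‖ ≤ 1

theorem e1_mul_e1 : e1 * e1 = e1 := by
  ext a b
  fin_cases a <;> fin_cases b <;> simp [e1]

theorem Cls.left {I : Finset ι} {M : ι → M2} (h : Cls I M) (S : Finset ι) :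
    ∃ M', Cls I M' ∧ EE S * tens M = tens M' := by
  refine ⟨_, ⟨fun i hi => ?_, fun i hi u v => ?_⟩, by rw [EE_eq_tens, tens_mul]⟩
  · split_ifs
    · rcases h.1 i hi with h1 | h1
      · rw [h1, mul_one]; exact Or.inr rfl
      · rw [h1, e1_mul_e1]; exact Or.inr rfl
    · rw [one_mul]; exact h.1 i hi
  · split_ifs
    · rw [e1, Matrix.diagonal_mul]
      split_ifs
      · rw [one_mul]; exact h.2 i hi u v
      · simp
    · rw [one_mul]; exact h.2 i hi u v

theorem Cls.right {I : Finset ι} {M : ι → M2} (h : Cls I M) (S : Finset ι) :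
    ∃ M', Cls I M' ∧ tens M * EE S = tens M' := by
  refine ⟨_, ⟨fun i hi => ?_, fun i hi u v => ?_⟩, by rw [EE_eq_tens, tens_mul]⟩
  · split_ifs
    · rcases h.1 i hi with h1 | h1
      · rw [h1, one_mul]; exact Or.inr rfl
      · rw [h1, e1_mul_e1]; exact Or.inr rfl
    · rw [mul_one]; exact h.1 i hi
  · split_ifs
    · rw [e1, Matrix.mul_diagonal]
      split_ifs
      · rw [mul_one]; exact h.2 i hi u v
      · simp
    · rw [mul_one]; exact h.2 i hi u v

theorem Cls.comm {I : Finset ι} {M : ι → M2} (h : Cls I M) {S : Finset ι} (hS : Disjoint S I) :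
    CZ S * tens M * CZ S = tens M := by
  have e : EE S * tens M = tens M * EE S := by
    rw [EE_eq_tens, tens_mul, tens_mul]
    congr 1
    funext i
    split_ifs with hi
    · rcases h.1 i (Finset.disjoint_left.mp hS hi) with h1 | h1 <;> simp [h1]
    · simp
  have e' : CZ S * tens M = tens M * CZ S := by
    unfold CZ
    rw [sub_mul, mul_sub, smul_mul_assoc, mul_smul_comm, e, one_mul, mul_one]
  rw [e', mul_assoc, CZ_mul_CZ, mul_one]

theorem stepA2 {I : Finset ι} {β : ℝ} (hβ : ∀ M, Cls I M → ‖A * tens M * B‖ ≤ β)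
    (l : List (Finset ι)) : ∀ M, Cls I M →
      ‖A * ((l.map CZ).prod * tens M * (l.map CZ).prod) * B‖ ≤
        9 ^ (l.countP fun S => decide (¬ Disjoint S I)) * β := by
  induction l with
  | nil => intro M hM; simpa using hβ M hM
  | cons S l ih =>
    intro M hM
    have e : ((S :: l).map CZ).prod * tens M * ((S :: l).map CZ).prod =
        (l.map CZ).prod * (CZ S * tens M * CZ S) * (l.map CZ).prod := by
      rw [List.map_cons, List.prod_cons]
      nth_rewrite 1 [CZ_comm_prod]
      simp only [mul_assoc]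
    rw [e]
    by_cases hS : Disjoint S I
    · rw [hM.comm hS, List.countP_cons_of_neg (by simpa using hS)]
      exact ih M hM
    · rw [List.countP_cons_of_pos (by simpa using hS), pow_succ', mul_assoc (9 : ℝ)]
      obtain ⟨M2, h2, e2⟩ := hM.left S
      obtain ⟨M3, h3, e3⟩ := hM.right S
      obtain ⟨M4, h4, e4⟩ := h2.right S
      have e5 : (l.map CZ).prod * (CZ S * tens M * CZ S) * (l.map CZ).prod =
          (1 : ℂ) • ((l.map CZ).prod * tens M * (l.map CZ).prod)
          + (-2 : ℂ) • ((l.map CZ).prod * tens M2 * (l.map CZ).prod)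
          + (-2 : ℂ) • ((l.map CZ).prod * tens M3 * (l.map CZ).prod)
          + (4 : ℂ) • ((l.map CZ).prod * tens M4 * (l.map CZ).prod) := by
        rw [← e4, ← e2, ← e3]
        unfold CZ
        simp only [mul_sub, sub_mul, mul_one, one_mul, smul_mul_assoc, mul_smul_comm,
          smul_sub, smul_smul, mul_assoc]
        module
      rw [e5]
      refine norm_lin4_le _ _ _ _ _ _ _ _ (ih M hM) (ih M2 h2) (ih M3 h3) (ih M4 h4) ?_
      simp
      norm_num

end Fixed

theorem countP_touch_le (l : List (Finset ι)) (hl : l.Pairwise Disjoint) :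
    ∀ I : Finset ι, (l.countP fun S => decide (¬ Disjoint S I)) ≤ I.card := by
  induction l with
  | nil => simp
  | cons S l ih =>
    intro I
    rw [List.pairwise_cons] at hl
    by_cases hS : Disjoint S I
    · rw [List.countP_cons_of_neg (by simpa using hS)]
      exact ih hl.2 I
    · rw [List.countP_cons_of_pos (by simpa using hS)]
      have h1 : (l.countP fun T => decide (¬ Disjoint T I)) =
          l.countP fun T => decide (¬ Disjoint T (I \ S)) := by
        refine List.countP_congr fun T hT => ?_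
        have hd := hl.1 T hT
        simp only [decide_eq_true_eq, Finset.not_disjoint_iff, Finset.mem_sdiff]
        constructor
        · rintro ⟨a, h1, h2⟩
          exact ⟨a, h1, h2, fun h => Finset.disjoint_left.mp hd h h1⟩
        · rintro ⟨a, h1, h2, -⟩
          exact ⟨a, h1, h2⟩
      have h2 := ih hl.2 (I \ S)
      have h3 : (I \ S).card < I.card := by
        refine Finset.card_lt_card ⟨Finset.sdiff_subset, fun h => ?_⟩
        obtain ⟨a, h1, h2⟩ := Finset.not_disjoint_iff.mp hS
        exact (Finset.mem_sdiff.mp (h h2)).2 h1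
      omega

/-- The monomial step. -/
theorem stepA {d D t : ℕ} {b : ℝ} (h : Lam ι d t b) : Mu ι (d + 1) D t (2 ^ (7 * D) * b) := by
  rintro U ⟨V, R, L, hV, ⟨l, hl, rfl⟩, ⟨M, hM, rfl⟩, rfl⟩ S I hI
  have hb : 0 ≤ b := (norm_nonneg _).trans (h V hV S S)
  have hg : ∀ W : Op ι, IsLoc W → ∀ S' : Finset ι,
      ‖(PP S * V) * (W * PP S' * star W) * (star V * QQ S t)‖ ≤ b := by
    intro W hW S'
    have := h (V * W) (hV.mul_loc hW) S S'
    rw [star_mul] at this
    simpa only [mul_assoc] using this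
  have hβ : ∀ M', Cls I M' → ‖(PP S * V) * tens M' * (star V * QQ S t)‖ ≤ 9 ^ I.card * b := by
    intro M' hM'
    refine stepA1 hg I M' (fun i hi => ?_) hM'.2
    rcases hM'.1 i hi with h1 | h1 <;> rw [h1]
    · exact isPr_one
    · exact isPr_e1
  have e : tens M * EE I * star (tens M) =
      tens fun i => if i ∈ I then M i * e1 * star (M i) else 1 := by
    rw [EE_eq_tens, tens_star, tens_mul, tens_mul]
    congr 1
    funext i
    split_ifs with hi
    · rfl
    · rw [mul_one]; exact (Unitary.mem_iff.mp (hM i)).2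
  have hcls : Cls I fun i => if i ∈ I then M i * e1 * star (M i) else 1 := by
    refine ⟨fun i hi => Or.inl (if_neg hi), fun i hi u v => ?_⟩
    simp only [if_pos hi]
    rw [Matrix.mul_apply, Fin.sum_univ_two]
    simp only [e1, Matrix.mul_diagonal, Matrix.star_apply]
    simp only [Fin.isValue, zero_ne_one, ↓reduceIte, mul_zero, zero_mul, mul_one, zero_add,
      norm_mul, norm_star]
    exact mul_le_one₀ (entry_norm_bound_of_unitary (hM i) _ _) (norm_nonneg _)
      (entry_norm_bound_of_unitary (hM i) _ _)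
  have main := stepA2 hβ l _ hcls
  rw [← e] at main
  have e2 : PP S * (V * (l.map CZ).prod * tens M) * EE I *
      star (V * (l.map CZ).prod * tens M) * QQ S t =
      PP S * V * ((l.map CZ).prod * (tens M * EE I * star (tens M)) * (l.map CZ).prod) *
        (star V * QQ S t) := by
    rw [star_mul, star_mul, prod_CZ_star]
    simp only [mul_assoc]
  rw [e2]
  refine main.trans ?_
  rw [← mul_assoc]
  refine mul_le_mul_of_nonneg_right ?_ hb
  have hc := countP_touch_le l hl I
  calc (9 : ℝ) ^ (l.countP fun S => decide (¬ Disjoint S I)) * 9 ^ I.card ≤ 9 ^ D * 9 ^ D := by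
        gcongr
        · norm_num
        · omega
        · norm_num
    _ = 81 ^ D := by rw [← mul_pow]; norm_num
    _ ≤ (2 ^ 7) ^ D := by gcongr; norm_num
    _ = 2 ^ (7 * D) := by rw [← pow_mul]

end Vale.Agent.N368
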