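import Vale.Agent.N368.TailZero
import Vale.Agent.N368.StepA
import Vale.Agent.N368.Boot

/-!
The bootstrap with optimized parameters: an explicit localization scale, uniform in the depth and
in the number of qubits.
-/

set_option linter.unusedSectionVars false

namespace Vale.Agent.N368.Tail

open Matrix Finset Vale.Agent.N368
open scoped Matrix.Norms.L2Operator

variable {ι : Type} [Fintype ι] [DecidableEq ι]

/-- `Ratio ι d a` says `λ_d(t) ≤ 2^(-s)` whenever `t ≥ 2^a s`. -/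
def Ratio (ι : Type) [Fintype ι] [DecidableEq ι] (d a : ℕ) : Prop :=
  ∀ s t, 1 ≤ s → 2 ^ a * s ≤ t → Lam ι d t ((2 ^ s)⁻¹)

theorem ratio_zero : Ratio ι 0 2 := by
  intro s t _ ht
  refine (lam_zero t).mono ?_
  calc ((3 : ℝ) / 4) ^ t ≤ (3 / 4) ^ (4 * s) :=
        pow_le_pow_of_le_one (by norm_num) (by norm_num) (by omega)
    _ = ((3 / 4) ^ 4) ^ s := by rw [pow_mul]
    _ ≤ (2⁻¹) ^ s := pow_le_pow_left₀ (by positivity) (by norm_num) s
    _ = (2 ^ s)⁻¹ := inv_pow _ _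

theorem ratio_succ {d a l g j r : ℕ} (hl : 2 * Fintype.card ι + 5 ≤ 2 ^ l)
    (hg : 4 * (7 + l + 1) * (l + 2) * (l + 1) ^ 2 ≤ 2 ^ g) (hr : l ≤ r * (j + 1))
    (h : Ratio ι d a) : Ratio ι (d + 1) (j * (a + g) + r) := by
  intro s t hs ht
  have hl1 : 1 ≤ l := by
    rcases Nat.eq_zero_or_pos l with h0 | h0
    · subst h0; omega
    · exact h0
  refine Boot.level (Lam ι (d + 1)) (Mu ι (d + 1)) (Fintype.card ι) 7 l (2 ^ a) (2 ^ r)
    (fun _ _ _ h hab => h.mono hab) (fun _ h => Lam.of_card_lt h)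
    (fun k m t a b x hk hm ha hb hx hMu hLam hsum =>
      stepB (N := Fintype.card ι) le_rfl hl hk hm ha hb hx hMu hLam hsum)
    (fun D s t hs ht => ?_) hl1 Nat.one_le_two_pow Nat.one_le_two_pow j s t hs ?_ (le_trans ?_ ht)
  · refine (stepA (D := D) (h (7 * D + s) t (by omega) ht)).mono (le_of_eq ?_)
    rw [pow_add]; field_simp
  · calc Fintype.card ι < 2 ^ l := by omega
      _ ≤ 2 ^ (r * (j + 1)) := Nat.pow_le_pow_right (by norm_num) hr
      _ = 1 * (2 ^ r) ^ (j + 1) := by rw [one_mul, pow_mul]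
      _ ≤ s * (2 ^ r) ^ (j + 1) := Nat.mul_le_mul_right _ hs
  · refine Nat.mul_le_mul_right _ ?_
    have h1 : 4 * 2 ^ a * (7 + l + 1) * (l + 2) * (l + 1) ^ 2 ≤ 2 ^ (a + g) := by
      calc 4 * 2 ^ a * (7 + l + 1) * (l + 2) * (l + 1) ^ 2
          = 2 ^ a * (4 * (7 + l + 1) * (l + 2) * (l + 1) ^ 2) := by ring
        _ ≤ 2 ^ a * 2 ^ g := Nat.mul_le_mul_left _ hg
        _ = 2 ^ (a + g) := by rw [← pow_add]
    calc (4 * 2 ^ a * (7 + l + 1) * (l + 2) * (l + 1) ^ 2) ^ j * 2 ^ r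
        ≤ (2 ^ (a + g)) ^ j * 2 ^ r := Nat.mul_le_mul_right _ (Nat.pow_le_pow_left h1 _)
      _ = 2 ^ (j * (a + g) + r) := by rw [← pow_mul, ← pow_add, mul_comm (a + g)]

/-- The weighted geometric mean which controls the ratio at depth `d`. -/
noncomputable def gm (Y X : ℝ) (d : ℕ) : ℝ :=
  Y ^ (1 - (1 / 2 : ℝ) ^ d) * X ^ ((1 / 2 : ℝ) ^ d)

theorem gm_zero (Y X : ℝ) : gm Y X 0 = X := by simp [gm]

theorem gm_succ {Y X : ℝ} (hY : 0 < Y) (hX : 0 < X) (d : ℕ) :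
    gm Y X (d + 1) ^ 2 = Y * gm Y X d := by
  unfold gm
  rw [mul_pow, ← Real.rpow_natCast, ← Real.rpow_natCast (X ^ _), ← Real.rpow_mul hY.le,
    ← Real.rpow_mul hX.le, ← mul_assoc]
  have e1 : (1 - (1 / 2 : ℝ) ^ (d + 1)) * ((2 : ℕ) : ℝ) = 1 + (1 - (1 / 2 : ℝ) ^ d) := by
    push_cast; ring
  have e2 : ((1 / 2 : ℝ) ^ (d + 1)) * ((2 : ℕ) : ℝ) = (1 / 2 : ℝ) ^ d := by
    push_cast; ring
  rw [e1, e2, Real.rpow_add hY, Real.rpow_one]

theorem le_gm {Y X : ℝ} (hX : 0 < X) (hXY : X ≤ Y) (d : ℕ) : X ≤ gm Y X d := by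
  have h0 : (0 : ℝ) ≤ 1 - (1 / 2 : ℝ) ^ d := by
    have : (1 / 2 : ℝ) ^ d ≤ 1 := pow_le_one₀ (by norm_num) (by norm_num)
    linarith
  calc X = X ^ (1 - (1 / 2 : ℝ) ^ d) * X ^ ((1 / 2 : ℝ) ^ d) := by
        rw [← Real.rpow_add hX]; simp
    _ ≤ gm Y X d := by
        unfold gm
        gcongr

theorem gm_mul {c Y X : ℝ} (hc : 0 < c) (hY : 0 ≤ Y) (hX : 0 ≤ X) (d : ℕ) :
    gm (c * Y) (c * X) d = c * gm Y X d := by
  unfold gm
  rw [Real.mul_rpow hc.le hY, Real.mul_rpow hc.le hX]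
  have : c ^ (1 - (1 / 2 : ℝ) ^ d) * c ^ ((1 / 2 : ℝ) ^ d) = c := by
    rw [← Real.rpow_add hc]; simp
  calc _ = (c ^ (1 - (1 / 2 : ℝ) ^ d) * c ^ ((1 / 2 : ℝ) ^ d)) *
        (Y ^ (1 - (1 / 2 : ℝ) ^ d) * X ^ ((1 / 2 : ℝ) ^ d)) := by ring
    _ = _ := by rw [this]

/-- The ratio at depth `d`. -/
theorem ratio_all {l g : ℕ} {X Y : ℝ} (hl : 2 * Fintype.card ι + 5 ≤ 2 ^ l)
    (hg : 4 * (7 + l + 1) * (l + 2) * (l + 1) ^ 2 ≤ 2 ^ g) (hX : (g : ℝ) + 2 ≤ X) (hY : (l : ℝ) ≤ Y)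
    (hXY : X ≤ Y) (d : ℕ) : ∃ a : ℕ, Ratio ι d a ∧ (a : ℝ) + g ≤ 9 * gm Y X d := by
  have hg0 : (0 : ℝ) ≤ g := Nat.cast_nonneg g
  have hX0 : 0 < X := by linarith
  have hY0 : 0 < Y := by linarith
  induction d with
  | zero => exact ⟨2, ratio_zero, by rw [gm_zero]; push_cast; linarith⟩
  | succ d ih =>
    obtain ⟨a, ha, hB⟩ := ih
    set B := 9 * gm Y X d with hBdef
    set S := 3 * gm Y X (d + 1) with hS
    have hXB := le_gm hX0 hXY d
    have hXS := le_gm hX0 hXY (d + 1)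
    have hB0 : 0 < B := by rw [hBdef]; linarith
    have hS0 : 0 < S := by rw [hS]; linarith
    have hSq : S ^ 2 = Y * B := by rw [hS, hBdef, mul_pow, gm_succ hY0 hX0]; ring
    set j := ⌊S / B⌋₊ with hj
    have hj1 : (j : ℝ) ≤ S / B := Nat.floor_le (by positivity)
    have hj2 : S / B < j + 1 := Nat.lt_floor_add_one _
    set r := l / (j + 1) + 1 with hr
    have hr1 : l ≤ r * (j + 1) := by
      have := Nat.lt_div_mul_add (a := l) (b := j + 1) (by omega)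
      rw [hr, add_mul]; omega
    have hr2 : (r : ℝ) ≤ S + 1 := by
      have h1 : ((l / (j + 1) : ℕ) : ℝ) ≤ (l : ℝ) / ((j + 1 : ℕ) : ℝ) := Nat.cast_div_le
      have h2 : (l : ℝ) / ((j + 1 : ℕ) : ℝ) ≤ S := by
        push_cast
        rw [div_le_iff₀ (by positivity)]
        rw [div_lt_iff₀ hB0] at hj2
        have h3 : S * S ≤ S * ((j + 1) * B) := mul_le_mul_of_nonneg_left hj2.le hS0.le
        have h4 : Y * B ≤ (S * (j + 1)) * B := by nlinarith
        exact hY.trans (le_of_mul_le_mul_right h4 hB0)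
      rw [hr]; push_cast at h1 h2 ⊢; linarith
    refine ⟨j * (a + g) + r, ratio_succ hl hg hr1 ha, ?_⟩
    have h5 : (j : ℝ) * (a + g) ≤ S := by
      calc (j : ℝ) * (a + g) ≤ S / B * B := by gcongr
        _ = S := by field_simp
    push_cast
    linarith

theorem exp_le_two_pow {y : ℝ} (_hy : 0 ≤ y) : Real.exp y ≤ 2 ^ ⌈2 * y⌉₊ := by
  have h1 : (1 / 2 : ℝ) < Real.log 2 := by have := Real.log_two_gt_d9; linarith
  have h2 : 2 * y ≤ ⌈2 * y⌉₊ := Nat.le_ceil _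
  calc Real.exp y ≤ Real.exp (⌈2 * y⌉₊ * Real.log 2) := Real.exp_le_exp.mpr (by nlinarith)
    _ = 2 ^ ⌈2 * y⌉₊ := by rw [Real.exp_nat_mul, Real.exp_log (by norm_num)]

theorem one_le_log {L : ℝ} (hL : 3 ≤ L) : 1 ≤ Real.log L := by
  rw [Real.le_log_iff_exp_le (by linarith)]
  have := Real.exp_one_lt_d9
  linarith

theorem ratio_explicit {L : ℝ} (hL : 3 ≤ L) (hN : (Fintype.card ι : ℝ) ≤ Real.exp L) (d : ℕ) :
    ∃ a : ℕ, Ratio ι d a ∧ (a : ℝ) ≤ 288 * gm L (Real.log L) d := by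
  have hlog := one_le_log hL
  have hlogL : Real.log L ≤ L := (Real.log_le_sub_one_of_pos (by linarith)).trans (by linarith)
  set l := ⌈2 * L⌉₊ + 3 with hl
  have hl1 : (l : ℝ) ≤ 2 * L + 4 := by
    have := Nat.ceil_lt_add_one (show 0 ≤ 2 * L by linarith)
    rw [hl]; push_cast; linarith
  have hN2 : Fintype.card ι ≤ 2 ^ ⌈2 * L⌉₊ := by
    have := hN.trans (exp_le_two_pow (by linarith))
    exact_mod_cast this
  have hl2 : 2 * Fintype.card ι + 5 ≤ 2 ^ l := by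
    have : 1 ≤ 2 ^ ⌈2 * L⌉₊ := Nat.one_le_two_pow
    rw [hl, pow_add]; omega
  have hlog6 : Real.log (6 * L) ≤ 3 * Real.log L := by
    rw [Real.log_mul (by norm_num) (by linarith)]
    have : Real.log 6 ≤ 2 := by
      rw [Real.log_le_iff_le_exp (by norm_num)]
      have h1 := Real.exp_one_gt_d9
      have h2 : Real.exp 2 = Real.exp 1 * Real.exp 1 := by rw [← Real.exp_add]; norm_num
      nlinarith
    linarith
  have hlog0 : 0 ≤ Real.log (6 * L) := Real.log_nonneg (by linarith)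
  set h := ⌈2 * Real.log (6 * L)⌉₊ with hh
  have hh1 : (h : ℝ) ≤ 7 * Real.log L := by
    have := Nat.ceil_lt_add_one (show 0 ≤ 2 * Real.log (6 * L) by linarith)
    rw [hh]; linarith
  have hh2 : l + 8 ≤ 2 ^ h := by
    have h1 := exp_le_two_pow hlog0
    rw [Real.exp_log (by linarith)] at h1
    have h2 : ((l + 8 : ℕ) : ℝ) ≤ 2 ^ h := by push_cast; linarith
    exact_mod_cast h2
  have hg : 4 * (7 + l + 1) * (l + 2) * (l + 1) ^ 2 ≤ 2 ^ (2 + 4 * h) := by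
    calc 4 * (7 + l + 1) * (l + 2) * (l + 1) ^ 2 ≤ 4 * 2 ^ h * 2 ^ h * (2 ^ h) ^ 2 := by
          gcongr <;> omega
      _ = 2 ^ (2 + 4 * h) := by ring
  obtain ⟨a, ha, hB⟩ := ratio_all (X := 32 * Real.log L) (Y := 32 * L) hl2 hg
    (by push_cast; linarith) (by linarith) (by linarith) d
  refine ⟨a, ha, ?_⟩
  rw [gm_mul (by norm_num) (by linarith) (by linarith)] at hB
  have : (0 : ℝ) ≤ ((2 + 4 * h : ℕ) : ℝ) := Nat.cast_nonneg _
  linarith

theorem lam_one (d t : ℕ) : Lam ι d t 1 := fun _ hU _ _ =>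
  norm_mul_le_one (norm_mul_le_one (norm_mul_le_one (norm_mul_le_one (norm_PP_le _)
    (norm_unitary_le hU.unitary)) (norm_PP_le _)) (norm_unitary_le hU.star.unitary))
    (norm_QQ_le _ _)

/-- The localization bound with an explicit scale. -/
theorem lam_explicit {L : ℝ} (hL : 3 ≤ L) (hN : (Fintype.card ι : ℝ) ≤ Real.exp L) (d t : ℕ) :
    Lam ι d t (2 * Real.exp (-(2 * t / Real.exp (300 * gm L (Real.log L) d)))) := by
  obtain ⟨a, ha, hB⟩ := ratio_explicit hL hN d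
  have hlog := one_le_log hL
  have hlogL : Real.log L ≤ L := (Real.log_le_sub_one_of_pos (by linarith)).trans (by linarith)
  have hgm := le_gm (by linarith) hlogL d
  set K := Real.exp (300 * gm L (Real.log L) d) with hK
  have hlog2 : Real.log 2 < 1 := by have := Real.log_two_lt_d9; linarith
  have hlog2' : 1 / 2 < Real.log 2 := by have := Real.log_two_gt_d9; linarith
  have hKa : 4 * (2 : ℝ) ^ a ≤ K := by
    have e : 4 * (2 : ℝ) ^ a = Real.exp (((a + 2 : ℕ) : ℝ) * Real.log 2) := by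
      rw [Real.exp_nat_mul, Real.exp_log (by norm_num), pow_add]; ring
    rw [e, hK]
    refine Real.exp_le_exp.mpr ?_
    push_cast
    have : (0 : ℝ) ≤ a := Nat.cast_nonneg a
    nlinarith
  set s := t / 2 ^ a with hs
  have h1 : Lam ι d t ((2 ^ s)⁻¹) := by
    rcases Nat.eq_zero_or_pos s with h0 | h0
    · rw [h0]; simpa using lam_one d t
    · exact ha s t h0 (Nat.mul_div_le t _)
  refine h1.mono ?_
  have h2 : (t : ℝ) ≤ 2 ^ a * (s + 1) := by
    have := Nat.lt_mul_div_succ t (show 0 < 2 ^ a by positivity)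
    exact_mod_cast this.le
  have h3 : 2 * t / K ≤ (s + 1) * Real.log 2 := by
    rw [div_le_iff₀ (by positivity)]
    have h4 : (0 : ℝ) ≤ s + 1 := by positivity
    calc 2 * (t : ℝ) ≤ (s + 1) * (1 / 2) * (4 * 2 ^ a) := by linarith
      _ ≤ (s + 1) * Real.log 2 * K := by gcongr
  calc ((2 : ℝ) ^ s)⁻¹ = 2 * Real.exp (-(((s + 1 : ℕ) : ℝ) * Real.log 2)) := by
        rw [Real.exp_neg, Real.exp_nat_mul, Real.exp_log (by norm_num), pow_succ]
        field_simp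
    _ ≤ _ := by
        push_cast
        gcongr

end Vale.Agent.N368.Tail
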