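import Vale.Agent.N368.TailFourier
import Vale.Agent.N368.Fanout

/-!
The localization bound rules out cat-like output states.
-/

namespace Vale.Agent.N368.Tail

open Matrix Finset Vale.Agent.N368 Vale.Agent.N368.Stmt
open scoped Matrix.Norms.L2Operator

variable {ι : Type} [Fintype ι] [DecidableEq ι]

/-- The norm of a rank one matrix. -/
lemma rank_one_le (a b : (ι → Fin 2) → ℂ) (X : Op ι) (hX : ∀ x y, X x y = a x * star (b y)) :
    (∑ x, ‖a x‖ ^ 2) * ∑ y, ‖b y‖ ^ 2 ≤ ‖X‖ ^ 2 := by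
  set B : ℝ := ∑ y, ‖b y‖ ^ 2 with hB
  have hB0 : 0 ≤ B := Finset.sum_nonneg fun _ _ => by positivity
  rcases hB0.eq_or_lt with h0 | h0
  · rw [← h0, mul_zero]; positivity
  have h := Matrix.l2_opNorm_mulVec X (WithLp.toLp 2 b : EuclideanSpace ℂ (ι → Fin 2))
  have h2 := pow_le_pow_left₀ (norm_nonneg _) h 2
  rw [mul_pow, EuclideanSpace.norm_sq_eq, EuclideanSpace.norm_sq_eq] at h2
  have e : ∀ x, (X *ᵥ b) x = a x * (B : ℂ) := by
    intro x
    rw [Matrix.mulVec, dotProduct, hB]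
    push_cast
    rw [Finset.mul_sum]
    refine Finset.sum_congr rfl fun y _ => ?_
    rw [hX, mul_assoc, Complex.star_def, Complex.conj_mul']
  have e2 : ∀ x, ‖a x * (B : ℂ)‖ ^ 2 = ‖a x‖ ^ 2 * B ^ 2 := fun x => by
    rw [norm_mul, Complex.norm_real, mul_pow, Real.norm_eq_abs, sq_abs]
  simp only [EuclideanSpace.equiv, PiLp.continuousLinearEquiv_symm_apply, e, e2] at h2
  rw [← Finset.sum_mul, ← hB] at h2
  have h3 : ((∑ x, ‖a x‖ ^ 2) * B) * B ≤ ‖X‖ ^ 2 * B := by nlinarith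
  exact le_of_mul_le_mul_right h3 h0

/-- The bit flip. -/
noncomputable def xg (b : Fin 2) : M2 := Matrix.of fun a a' => if a = a' + b then 1 else 0

lemma xg_unitary (b : Fin 2) : xg b ∈ Matrix.unitaryGroup (Fin 2) ℂ := by
  rw [Matrix.mem_unitaryGroup_iff]
  ext a a'
  fin_cases b <;> fin_cases a <;> fin_cases a' <;>
    simp [xg, Matrix.mul_apply, Matrix.star_apply]

lemma mul_xg (U : Op ι) (w y : ι → Fin 2) : (U * tens fun i => xg (w i)) y 0 = U y w := by
  rw [Matrix.mul_apply, Finset.sum_eq_single w]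
  · simp [tens_apply, xg]
  · intro v _ hv
    obtain ⟨i, hi⟩ := Function.ne_iff.mp hv
    rw [tens_apply, Finset.prod_eq_zero (Finset.mem_univ i) (by simp [xg, hi]), mul_zero]
  · simp

lemma cat_le {d : ℕ} {c : ℝ} (U : Op ι) (hU : Circ d U) (S : Finset ι) (hL : Lam ι d S.card c)
    (w : ι → Fin 2) :
    (∑ y with ∀ i ∈ S, y i = 0, ‖U y w‖ ^ 2) * ∑ y with ∀ i ∈ S, y i = 1, ‖U y w‖ ^ 2 ≤ c ^ 2 := by
  have hloc : IsLoc (tens fun i => xg (w i)) := ⟨_, fun i => xg_unitary _, rfl⟩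
  have h := hL _ (hU.mul_loc hloc) S univ
  set V := U * tens fun i => xg (w i) with hV
  have hz : ∀ x : ι → Fin 2, hw univ x = 0 ↔ x = 0 := fun x => by
    rw [hw_eq_zero_iff]
    exact ⟨fun h => funext fun i => h i (mem_univ i), fun h i _ => by rw [h]; rfl⟩
  have hone : ∀ y : ι → Fin 2, S.card ≤ hw S y ↔ ∀ i ∈ S, y i = 1 := fun y => by
    unfold hw
    rw [← Finset.filter_eq_self]
    exact ⟨fun h => Finset.eq_of_subset_of_card_le (Finset.filter_subset _ _) h,
      fun h => by rw [h]⟩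
  have key := rank_one_le (fun x => if ∀ i ∈ S, x i = 0 then U x w else 0)
    (fun y => if ∀ i ∈ S, y i = 1 then U y w else 0) (PP S * V * PP univ * star V * QQ S S.card)
    (fun x y => by
      rw [QQ, Matrix.mul_diagonal, Matrix.mul_apply, Finset.sum_eq_single 0]
      · rw [PP, PP, Matrix.mul_diagonal, Matrix.diagonal_mul, if_pos ((hz 0).2 rfl), mul_one,
          Matrix.star_apply, hV, mul_xg, mul_xg]
        simp only [hw_eq_zero_iff, hone]
        split_ifs <;> simp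
      · intro b _ hb
        rw [PP, PP, Matrix.mul_diagonal, if_neg fun h => hb ((hz b).1 h), mul_zero, zero_mul]
      · simp)
  refine le_trans (le_of_eq ?_) (key.trans (pow_le_pow_left₀ (norm_nonneg _) h 2))
  rw [Finset.sum_filter, Finset.sum_filter]
  congr 1 <;> refine Finset.sum_congr rfl fun y _ => ?_ <;> split_ifs <;> simp

lemma col_sum (U : Op ι) (hU : U ∈ unitary (Op ι)) (w : ι → Fin 2) : ∑ y, ‖U y w‖ ^ 2 = 1 := by
  have h := congrFun (congrFun (Unitary.mem_iff.mp hU).1 w) w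
  rw [Matrix.mul_apply, Matrix.one_apply_eq] at h
  have h' : ((∑ y, ‖U y w‖ ^ 2 : ℝ) : ℂ) = 1 := by
    rw [← h]
    push_cast
    exact Finset.sum_congr rfl fun y _ => by
      rw [Matrix.star_apply, Complex.star_def, Complex.conj_mul']
  exact_mod_cast h'

/-- The two constant outcomes on `S` are not both likely. -/
theorem cat_exp {d : ℕ} {u : ℝ} (U : Op ι) (hU : Circ d U) (S : Finset ι)
    (hL : Lam ι d S.card (2 * Real.exp (-(2 * u)))) (hu : S = ∅ → u = 0) (w : ι → Fin 2) :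
    (∑ y with ∀ i ∈ S, y i = 0, ‖U y w‖ ^ 2) * ∑ y with ∀ i ∈ S, y i = 1, ‖U y w‖ ^ 2 ≤
      Real.exp (-u) := by
  have hcol := col_sum U hU.unitary w
  rcases S.eq_empty_or_nonempty with h0 | ⟨i, hi⟩
  · rw [hu h0, h0]
    simp [hcol]
  have h1 := cat_le U hU S hL w
  have h2 : (∑ y with ∀ i ∈ S, y i = 0, ‖U y w‖ ^ 2) + ∑ y with ∀ i ∈ S, y i = 1, ‖U y w‖ ^ 2
      ≤ 1 := by
    rw [← Finset.sum_union, ← hcol]
    · exact Finset.sum_le_sum_of_subset_of_nonneg (Finset.subset_univ _) fun _ _ _ => by positivity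
    · rw [Finset.disjoint_filter]
      intro y _ a b
      have := (a i hi).symm.trans (b i hi)
      exact absurd this (by decide)
  have e : Real.exp (-(2 * u)) = Real.exp (-u) ^ 2 := by
    rw [← Real.exp_nat_mul]; congr 1; push_cast; ring
  rw [e] at h1
  have h4 := Real.exp_pos (-u)
  set v := Real.exp (-u)
  set p := ∑ y with ∀ i ∈ S, y i = 0, ‖U y w‖ ^ 2
  set q := ∑ y with ∀ i ∈ S, y i = 1, ‖U y w‖ ^ 2
  have hp : 0 ≤ p := Finset.sum_nonneg fun _ _ => by positivity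
  have hq : 0 ≤ q := Finset.sum_nonneg fun _ _ => by positivity
  by_cases h : 1 / 4 ≤ v
  · nlinarith [sq_nonneg (p - q)]
  · have h5 : v ^ 3 ≤ (1 / 4) ^ 3 := pow_le_pow_left₀ h4.le (by linarith) 3
    have h6 : v * v ^ 3 ≤ v * (1 / 4) ^ 3 := by gcongr
    nlinarith

end Vale.Agent.N368.Tail
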