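import Mathlib

/-!
Fourier analysis on the Boolean cube: Parseval's identity and the total influence.
-/

namespace Vale.Agent.N368.Tail

open Finset

variable {n : ℕ}

/-- The character of `T`. -/
def chi (T : Finset (Fin n)) (x : Fin n → Fin 2) : ℝ := ∏ i ∈ T, (-1) ^ (x i : ℕ)

/-- The Fourier coefficient. -/
noncomputable def hat (f : (Fin n → Fin 2) → ℝ) (T : Finset (Fin n)) : ℝ :=
  (∑ x, f x * chi T x) / 2 ^ n

/-- Flipping one bit. -/
def flip (i : Fin n) (x : Fin n → Fin 2) : Fin n → Fin 2 := Function.update x i (x i + 1)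

theorem flip_flip (i : Fin n) (x : Fin n → Fin 2) : flip i (flip i x) = x := by
  unfold flip
  rw [Function.update_self, Function.update_idem]
  have : ∀ a : Fin 2, a + 1 + 1 = a := by decide
  rw [this, Function.update_eq_self]

theorem sum_chi_mul (x y : Fin n → Fin 2) :
    ∑ T : Finset (Fin n), chi T x * chi T y = if x = y then 2 ^ n else 0 := by
  have h : ∑ T : Finset (Fin n), chi T x * chi T y =
      ∏ i : Fin n, (1 + (-1 : ℝ) ^ (x i : ℕ) * (-1) ^ (y i : ℕ)) := by
    rw [Finset.prod_one_add, Finset.powerset_univ]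
    exact Finset.sum_congr rfl fun T _ => by rw [chi, chi, Finset.prod_mul_distrib]
  rw [h]
  split_ifs with hxy
  · subst hxy
    have : ∀ i, (1 + (-1 : ℝ) ^ (x i : ℕ) * (-1) ^ (x i : ℕ)) = 2 := fun i => by
      generalize x i = a
      fin_cases a <;> norm_num
    simp [this]
  · obtain ⟨i, hi⟩ := Function.ne_iff.mp hxy
    refine Finset.prod_eq_zero (Finset.mem_univ i) ?_
    revert hi
    generalize x i = a
    generalize y i = b
    fin_cases a <;> fin_cases b <;> simp

theorem parseval (f : (Fin n → Fin 2) → ℝ) :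
    ∑ T, hat f T ^ 2 = (∑ x, f x ^ 2) / 2 ^ n := by
  have h : ∀ T, hat f T ^ 2 = (∑ x, ∑ y, f x * f y * (chi T x * chi T y)) / (2 ^ n) ^ 2 := by
    intro T
    rw [hat, div_pow, sq, Finset.sum_mul_sum]
    congr 1
    exact Finset.sum_congr rfl fun x _ => Finset.sum_congr rfl fun y _ => by ring
  simp only [h]
  rw [← Finset.sum_div, Finset.sum_comm]
  have h2 : ∀ x, ∑ T : Finset (Fin n), ∑ y, f x * f y * (chi T x * chi T y) = 2 ^ n * f x ^ 2 := by
    intro x
    rw [Finset.sum_comm]
    simp only [← Finset.mul_sum, sum_chi_mul, mul_ite, mul_zero, Finset.sum_ite_eq,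
      Finset.mem_univ, if_true]
    ring
  simp only [h2]
  rw [← Finset.mul_sum]
  field_simp

theorem chi_flip (T : Finset (Fin n)) (i : Fin n) (x : Fin n → Fin 2) :
    chi T (flip i x) = if i ∈ T then -chi T x else chi T x := by
  unfold chi
  split_ifs with hi
  · rw [← Finset.mul_prod_erase T _ hi, ← Finset.mul_prod_erase T _ hi, ← neg_mul]
    congr 1
    · rw [flip, Function.update_self]
      generalize x i = a
      fin_cases a <;> simp
    · refine Finset.prod_congr rfl fun j hj => ?_
      rw [flip, Function.update_of_ne (Finset.ne_of_mem_erase hj)]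
  · refine Finset.prod_congr rfl fun j hj => ?_
    rw [flip, Function.update_of_ne (fun h : j = i => hi (h ▸ hj))]

theorem hat_diff (f : (Fin n → Fin 2) → ℝ) (i : Fin n) (T : Finset (Fin n)) :
    hat (fun x => f x - f (flip i x)) T = if i ∈ T then 2 * hat f T else 0 := by
  have h : ∑ x, f (flip i x) * chi T x = ∑ x, f x * chi T (flip i x) := by
    refine Fintype.sum_bijective (flip i) (Function.Involutive.bijective (flip_flip i)) _ _ ?_
    intro x
    rw [flip_flip]
  unfold hat
  simp only [sub_mul, Finset.sum_sub_distrib, h, chi_flip]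
  split_ifs
  · simp only [mul_neg, Finset.sum_neg_distrib]; ring
  · simp

/-- The total influence in terms of the Fourier coefficients. -/
theorem influence (f : (Fin n → Fin 2) → ℝ) :
    (∑ x, ∑ i, (f x - f (flip i x)) ^ 2) / 2 ^ n = 4 * ∑ T, (T.card : ℝ) * hat f T ^ 2 := by
  rw [Finset.sum_comm, Finset.sum_div]
  simp only [← parseval, hat_diff]
  rw [Finset.sum_comm, Finset.mul_sum]
  refine Finset.sum_congr rfl fun T _ => ?_
  simp only [ite_pow, ne_eq, OfNat.ofNat_ne_zero, not_false_eq_true, zero_pow, Finset.sum_ite_mem,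
    Finset.univ_inter, Finset.sum_const, nsmul_eq_mul]
  ring

theorem sum_card_mul (w : Finset (Fin n) → ℝ) :
    ∑ T, (T.card : ℝ) * w T = ∑ t ∈ range n, ∑ T with t + 1 ≤ T.card, w T := by
  simp only [Finset.sum_filter]
  rw [Finset.sum_comm]
  refine Finset.sum_congr rfl fun T _ => ?_
  rw [← Finset.sum_filter, Finset.sum_const, nsmul_eq_mul]
  congr 2
  have hT : T.card ≤ n := by simpa using Finset.card_le_univ T
  have : (range n).filter (fun t => t + 1 ≤ T.card) = range T.card := by
    ext t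
    simp only [Finset.mem_filter, Finset.mem_range]
    omega
  rw [this, Finset.card_range]

theorem sum_exp_le {K : ℝ} (hK : 0 < K) (m : ℕ) :
    ∑ t ∈ range m, Real.exp (-(((t + 1 : ℕ) : ℝ) / K)) ≤ K := by
  have h : ∀ m : ℕ, ∑ t ∈ range m, Real.exp (-(((t + 1 : ℕ) : ℝ) / K)) ≤
      K * (1 - Real.exp (-((m : ℝ) / K))) := by
    intro m
    induction m with
    | zero => simp
    | succ m ih =>
      rw [Finset.sum_range_succ]
      have e : Real.exp (-((m : ℝ) / K)) =
          Real.exp (-(((m + 1 : ℕ) : ℝ) / K)) * Real.exp (1 / K) := by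
        rw [← Real.exp_add]; congr 1; push_cast; ring
      have h1 : 1 / K + 1 ≤ Real.exp (1 / K) := Real.add_one_le_exp _
      have h2 := Real.exp_pos (-(((m + 1 : ℕ) : ℝ) / K))
      have h3 : K * (1 / K) = 1 := by field_simp
      have h4 : K * (Real.exp (-(((m + 1 : ℕ) : ℝ) / K)) * (1 / K + 1)) ≤
          K * (Real.exp (-(((m + 1 : ℕ) : ℝ) / K)) * Real.exp (1 / K)) := by gcongr
      rw [e] at ih
      nlinarith
  refine (h m).trans ?_
  have := Real.exp_pos (-((m : ℝ) / K))
  nlinarith

/-- An exponential tail bound controls the number of sensitive edges. -/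
theorem sens_le (f : (Fin n → Fin 2) → ℝ) (g : (Fin n → Fin 2) → Fin 2) {K ε : ℝ} (hK : 0 < K)
    (hε : 0 < ε) (htail : ∀ t : ℕ, ∑ T with t ≤ T.card, hat f T ^ 2 ≤ 2 * Real.exp (-(t / K)))
    (h0 : ∀ x, g x = 0 → 2 * ε ≤ f x) (h1 : ∀ x, g x = 1 → f x ≤ -(2 * ε)) :
    (∑ x, ((univ.filter fun i => g (flip i x) ≠ g x).card : ℝ)) / 2 ^ n ≤ K / (2 * ε ^ 2) := by
  have hx : ∀ x, 16 * ε ^ 2 * ((univ.filter fun i => g (flip i x) ≠ g x).card : ℝ) ≤
      ∑ i, (f x - f (flip i x)) ^ 2 := by
    intro x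
    rw [Finset.card_filter]
    push_cast
    rw [Finset.mul_sum]
    refine Finset.sum_le_sum fun i _ => ?_
    split_ifs with h
    · have two : ∀ a b : Fin 2, a ≠ b → (a = 0 ∧ b = 1) ∨ (a = 1 ∧ b = 0) := by decide
      rcases two _ _ h with ⟨a, b⟩ | ⟨a, b⟩
      · have := h0 _ a
        have := h1 _ b
        nlinarith
      · have := h1 _ a
        have := h0 _ b
        nlinarith
    · rw [mul_zero]; positivity
  have h2 : 16 * ε ^ 2 * ((∑ x, ((univ.filter fun i => g (flip i x) ≠ g x).card : ℝ)) / 2 ^ n) ≤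
      4 * (2 * K) := by
    calc _ = (∑ x, 16 * ε ^ 2 * ((univ.filter fun i => g (flip i x) ≠ g x).card : ℝ)) / 2 ^ n := by
          rw [← Finset.mul_sum]; ring
      _ ≤ (∑ x, ∑ i, (f x - f (flip i x)) ^ 2) / 2 ^ n := by
          gcongr with x
          exact hx x
      _ = 4 * ∑ t ∈ range n, ∑ T with t + 1 ≤ T.card, hat f T ^ 2 := by
          rw [influence, sum_card_mul]
      _ ≤ 4 * ∑ t ∈ range n, 2 * Real.exp (-(((t + 1 : ℕ) : ℝ) / K)) := by
          gcongr with t
          exact htail (t + 1)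
      _ ≤ 4 * (2 * K) := by
          rw [← Finset.mul_sum]
          gcongr
          exact sum_exp_le hK n
  rw [le_div_iff₀ (by positivity)]
  linarith

end Vale.Agent.N368.Tail
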