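import Vale.Agent.N368.Stmt

/-!
# P368: Fourier coefficients of a circuit and average sensitivity
-/

namespace Vale.Agent.N368.Stmt

open Finset

variable {n : ℕ}

/-- The Fourier coefficient at `T` of the bias `x ↦ Pr[output 0] - Pr[output 1]`. -/
noncomputable def Circuit.coeff (C : Circuit n) (T : Finset (Fin n)) : ℝ :=
  (∑ x : Bits n, (C.prob x 0 - C.prob x 1) * ∏ i ∈ T, (-1) ^ (x i : ℕ)) / 2 ^ n

/-- The average sensitivity of a Boolean function: the average over `x` of the number of bits of
`x` whose flip changes the value. -/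
noncomputable def sens (g : Bits n → Fin 2) : ℝ :=
  (∑ x : Bits n, ((univ.filter fun i => g (Function.update x i (x i + 1)) ≠ g x).card : ℝ)) / 2 ^ n

end Vale.Agent.N368.Stmt
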