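import Vale.Agent.N368.TailCube
import Vale.Agent.N368.TailStmt
import Vale.Agent.N368.Bridge
import Vale.Agent.N368.StepB

/-!
The localization bound controls the Fourier tail of the acceptance probability.
-/

namespace Vale.Agent.N368.Tail

open Matrix Finset Vale.Agent.N368 Vale.Agent.N368.Stmt Vale.Agent.N368.Parity
open scoped Matrix.Norms.L2Operator

lemma hz_sum' (a a' b : Fin 2) :
    ∑ z : Fin 2, star (hz z a 0) * hz z a' b = if a = a' then sgn (a * b) else 0 := by
  have h := sqrt_two_inv_sq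
  fin_cases a <;> fin_cases a' <;> fin_cases b <;>
    simp only [hz, sgn, Fin.sum_univ_two, Matrix.of_apply, star_mul', Complex.star_def,
      Complex.conj_ofReal] <;>
    simp <;> simp only [← Complex.ofReal_inv] <;>
    first | linear_combination 2 * h | linear_combination (-2) * h

variable {ι : Type} [Fintype ι] [DecidableEq ι]

/-- The weight obtained by summing over all Hadamard bases. -/
def wt' (In : Finset ι) (y x : ι → Fin 2) : ℂ :=
  ∏ i, if i ∈ In then sgn (x i * y i) else if x i = 0 then 2 else 0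

lemma sum_kron' (In : Finset ι) (y : ι → Fin 2) (hy : ∀ i, i ∉ In → y i = 0) (x x' : ι → Fin 2) :
    ∑ z : ι → Fin 2, star (kron (loc In z) x 0) * kron (loc In z) x' y
      = if x = x' then wt' In y x else 0 := by
  have h1 : ∀ z : ι → Fin 2, star (kron (loc In z) x 0) * kron (loc In z) x' y
      = ∏ i, (fun (i : ι) (b : Fin 2) =>
          star ((if i ∈ In then hz b else 1 : Matrix (Fin 2) (Fin 2) ℂ) (x i) 0) *
            (if i ∈ In then hz b else 1 : Matrix (Fin 2) (Fin 2) ℂ) (x' i) (y i)) i (z i) := by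
    intro z
    simp only [kron, Matrix.of_apply, star_prod, ← Finset.prod_mul_distrib, loc, Pi.zero_apply]
  rw [Finset.sum_congr rfl (fun z _ => h1 z), ← Fintype.piFinset_univ,
    ← Finset.prod_univ_sum (fun _ : ι => (Finset.univ : Finset (Fin 2)))
      (fun (i : ι) (b : Fin 2) =>
          star ((if i ∈ In then hz b else 1 : Matrix (Fin 2) (Fin 2) ℂ) (x i) 0) *
            (if i ∈ In then hz b else 1 : Matrix (Fin 2) (Fin 2) ℂ) (x' i) (y i))]
  have h2 : ∀ i, (∑ b : Fin 2,
      star ((if i ∈ In then hz b else 1 : Matrix (Fin 2) (Fin 2) ℂ) (x i) 0) *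
        (if i ∈ In then hz b else 1 : Matrix (Fin 2) (Fin 2) ℂ) (x' i) (y i))
      = if x i = x' i then (if i ∈ In then sgn (x i * y i) else if x i = 0 then 2 else 0)
        else 0 := by
    intro i
    by_cases hi : i ∈ In
    · simp only [hi, if_true]
      exact hz_sum' _ _ _
    · simp only [hi, if_false, hy i hi, Matrix.one_apply]
      generalize x i = a
      generalize x' i = a'
      fin_cases a <;> fin_cases a' <;> simp
  simp only [h2]
  split_ifs with hx
  · subst hx
    simp [wt']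
  · obtain ⟨i, hi⟩ := Function.ne_iff.mp hx
    exact Finset.prod_eq_zero (Finset.mem_univ i) (by simp [hi])

lemma sum_entry' (In : Finset ι) (y : ι → Fin 2) (hy : ∀ i, i ∉ In → y i = 0) (M : Op ι) :
    ∑ z : ι → Fin 2, ((kron (loc In z))ᴴ * M * kron (loc In z)) 0 y
      = ∑ x, wt' In y x * M x x := by
  have h1 : ∀ z : ι → Fin 2, ((kron (loc In z))ᴴ * M * kron (loc In z)) 0 y
      = ∑ x, ∑ x', M x x' * (star (kron (loc In z) x 0) * kron (loc In z) x' y) := by
    intro z
    simp only [Matrix.mul_apply, Matrix.conjTranspose_apply, Finset.sum_mul]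
    rw [Finset.sum_comm]
    refine Finset.sum_congr rfl fun x _ => Finset.sum_congr rfl fun x' _ => by ring
  simp only [h1]
  rw [Finset.sum_comm]
  refine Finset.sum_congr rfl fun x _ => ?_
  rw [Finset.sum_comm]
  simp only [← Finset.mul_sum, sum_kron' In y hy]
  simp [mul_comm]

lemma sgn_mul_self (a : Fin 2) : sgn a * sgn a = 1 := by
  fin_cases a <;> simp [sgn]

lemma wt'_eq (In : Finset ι) (y x : ι → Fin 2) :
    wt' In y x = wt In x * ∏ i ∈ In, sgn (x i) * sgn (x i * y i) := by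
  have : ∏ i ∈ In, sgn (x i) * sgn (x i * y i) =
      ∏ i, if i ∈ In then sgn (x i) * sgn (x i * y i) else 1 := by
    rw [Finset.prod_ite_mem, Finset.univ_inter]
  rw [this, wt, wt', ← Finset.prod_mul_distrib]
  refine Finset.prod_congr rfl fun i _ => ?_
  split_ifs
  · rw [← mul_assoc, sgn_mul_self, one_mul]
  · rw [mul_one]
  · rw [mul_one]

/-- A row of a matrix has norm at most the operator norm. -/
lemma row_le (X : Op ι) (x : ι → Fin 2) : ∑ y, ‖X x y‖ ^ 2 ≤ ‖X‖ ^ 2 := by
  have h := norm_entry_le (X * star X) x x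
  rw [CStarRing.norm_self_mul_star, ← sq, Matrix.mul_apply] at h
  have e : ∑ y, X x y * star X y x = ((∑ y, ‖X x y‖ ^ 2 : ℝ) : ℂ) := by
    push_cast
    exact Finset.sum_congr rfl fun y _ => by
      rw [Matrix.star_apply, Complex.star_def, Complex.mul_conj']
  rw [e, Complex.norm_real, Real.norm_eq_abs] at h
  exact (le_abs_self _).trans h

lemma row_le_of_lam {d t : ℕ} {c : ℝ} (C : Op ι) (hC : Circ d C) (out : ι) (hL : Lam ι d t c)
    (L : ι → M2) (hLu : ∀ i, L i ∈ Matrix.unitaryGroup (Fin 2) ℂ) :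
    ∑ y with t ≤ hw univ y, ‖((kron L)ᴴ * (Cᴴ * projZero out * C) * kron L) 0 y‖ ^ 2 ≤ c ^ 2 := by
  have hloc : IsLoc (tens L) := ⟨L, hLu, rfl⟩
  have hU : Circ d (star (C * tens L)) := (hC.mul_loc hloc).star
  have h := hL _ hU Finset.univ {out}
  have hk : kron L = tens L := rfl
  have e1 : PP (Finset.univ : Finset ι) * star (C * tens L) * PP {out} * star (star (C * tens L))
      * QQ Finset.univ t
      = PP (Finset.univ : Finset ι) * ((kron L)ᴴ * (Cᴴ * projZero out * C) * kron L)
        * QQ Finset.univ t := by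
    rw [star_star, star_mul, projZero_eq, hk, Matrix.star_eq_conjTranspose,
      Matrix.star_eq_conjTranspose]
    simp only [mul_assoc]
  rw [e1] at h
  have h0 : hw (Finset.univ : Finset ι) 0 = 0 := by
    rw [hw_eq_zero_iff]
    intro i _
    rfl
  refine le_trans (le_of_eq ?_) ((row_le _ 0).trans (pow_le_pow_left₀ (norm_nonneg _) h 2))
  rw [Finset.sum_filter]
  refine Finset.sum_congr rfl fun y _ => ?_
  rw [PP, QQ, Matrix.mul_diagonal, Matrix.diagonal_mul, if_pos h0, one_mul]
  split_ifs <;> simp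

variable {n : ℕ}

lemma prod_sgn_ind (T : Finset (Fin n)) (x : Bits n) :
    ∏ k, sgn (x k * ind T k) = ((chi T x : ℝ) : ℂ) := by
  have : chi T x = ∏ k, if k ∈ T then (-1 : ℝ) ^ (x k : ℕ) else 1 := by
    rw [Finset.prod_ite_mem, Finset.univ_inter, chi]
  rw [this]
  push_cast
  refine Finset.prod_congr rfl fun k _ => ?_
  unfold ind
  generalize x k = a
  split_ifs <;> fin_cases a <;> simp [sgn]

lemma ind_pad_inj (C : Circuit n) : Function.Injective fun T : Finset (Fin n) => C.pad (ind T) := by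
  intro T T' h
  ext k
  have h1 := congrFun h (Fin.castLEEmb C.le k)
  simp only [Bridge.pad_in, ind] at h1
  by_cases a : k ∈ T <;> by_cases b : k ∈ T' <;> simp_all

lemma hw_pad_ind (C : Circuit n) (T : Finset (Fin n)) : T.card ≤ hw univ (C.pad (ind T)) := by
  unfold hw
  rw [← Finset.card_map (Fin.castLEEmb C.le)]
  refine Finset.card_le_card fun i hi => ?_
  obtain ⟨k, hk, rfl⟩ := Finset.mem_map.mp hi
  rw [Finset.mem_filter, Bridge.pad_in]
  exact ⟨Finset.mem_univ _, if_pos hk⟩

/-- The Fourier coefficients of the acceptance probability are averages of matrix entries. -/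
lemma hat_eq (C : Circuit n) (T : Finset (Fin n)) :
    ∑ z : Bits C.N, ((kron (loc (univ.map (Fin.castLEEmb C.le)) z))ᴴ *
        (C.matᴴ * projZero C.out * C.mat) * kron (loc (univ.map (Fin.castLEEmb C.le)) z)) 0
          (C.pad (ind T)) = ((2 ^ C.N * hat (fun x => C.prob x 0) T : ℝ) : ℂ) := by
  rw [sum_entry' _ _ (fun i hi => Bridge.pad_out C _ i (by simpa using hi))]
  simp only [wt'_eq, mul_assoc (wt _ _)]
  rw [sum_wt (Fin.castLEEmb C.le) C.pad (Bridge.pad_in C) (Bridge.pad_out C), Fintype.card_fin,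
    Fintype.card_fin, hat]
  have e : (2 : ℝ) ^ C.N = 2 ^ (C.N - n) * 2 ^ n := by rw [← pow_add, Nat.sub_add_cancel C.le]
  rw [e, mul_assoc ((2 : ℝ) ^ (C.N - n)), mul_div_cancel₀ _ (by positivity)]
  push_cast
  congr 1
  refine Finset.sum_congr rfl fun x _ => ?_
  rw [diag_eq, ← Bridge.prob_eq, Finset.prod_map, sgn_sum, ← prod_sgn_ind, ← mul_assoc,
    ← Finset.prod_mul_distrib, mul_comm]
  congr 1
  refine Finset.prod_congr rfl fun k _ => ?_
  rw [Bridge.pad_in, Bridge.pad_in, ← mul_assoc, sgn_mul_self, one_mul]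

/-- The Fourier tail of the acceptance probability. -/
theorem tail_prob (C : Circuit n) {d t : ℕ} {c : ℝ} (hC : Circ d C.mat)
    (hL : Lam (Fin C.N) d t c) :
    ∑ T with t ≤ T.card, hat (fun x => C.prob x 0) T ^ 2 ≤ c ^ 2 := by
  set In : Finset (Fin C.N) := univ.map (Fin.castLEEmb C.le) with hIn
  set A : Bits C.N → Op (Fin C.N) := fun z =>
    (kron (loc In z))ᴴ * (C.matᴴ * projZero C.out * C.mat) * kron (loc In z) with hA
  have h1 : ∀ T, (2 ^ C.N) ^ 2 * hat (fun x => C.prob x 0) T ^ 2 ≤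
      2 ^ C.N * ∑ z, ‖A z 0 (C.pad (ind T))‖ ^ 2 := by
    intro T
    have h := congrArg norm (hat_eq C T)
    rw [Complex.norm_real, Real.norm_eq_abs] at h
    rw [← mul_pow, ← sq_abs, ← h]
    calc _ ≤ (∑ z, ‖A z 0 (C.pad (ind T))‖) ^ 2 :=
          pow_le_pow_left₀ (norm_nonneg _) (norm_sum_le _ _) 2
      _ ≤ _ := by
          refine (sq_sum_le_card_mul_sum_sq).trans (le_of_eq ?_)
          simp
  have h2 : ∀ z, ∑ T : Finset (Fin n) with t ≤ T.card, ‖A z 0 (C.pad (ind T))‖ ^ 2 ≤ c ^ 2 := by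
    intro z
    refine le_trans ?_ (row_le_of_lam C.mat hC C.out hL (loc In z) (loc_unitary In z))
    rw [← Finset.sum_image (f := fun y => ‖A z 0 y‖ ^ 2)
      (fun a _ b _ h => ind_pad_inj C h)]
    refine Finset.sum_le_sum_of_subset_of_nonneg (fun y hy => ?_) fun _ _ _ => by positivity
    obtain ⟨T, hT, rfl⟩ := Finset.mem_image.mp hy
    exact Finset.mem_filter.mpr ⟨Finset.mem_univ _,
      (Finset.mem_filter.mp hT).2.trans (hw_pad_ind C T)⟩
  have h3 : (2 ^ C.N) ^ 2 * ∑ T with t ≤ T.card, hat (fun x => C.prob x 0) T ^ 2 ≤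
      (2 ^ C.N) ^ 2 * c ^ 2 := by
    rw [Finset.mul_sum]
    refine (Finset.sum_le_sum fun T _ => h1 T).trans ?_
    rw [← Finset.mul_sum, Finset.sum_comm, sq ((2 : ℝ) ^ C.N), mul_assoc]
    gcongr
    refine (Finset.sum_le_sum fun z _ => h2 z).trans (le_of_eq ?_)
    simp
  exact le_of_mul_le_mul_left h3 (by positivity)

lemma prob_add_prob (C : Circuit n) {d : ℕ} (hC : Circ d C.mat) (x : Bits n) :
    C.prob x 0 + C.prob x 1 = 1 := by
  rw [Bridge.prob_eq, Bridge.prob_eq]
  exact prob_add _ (Unitary.mem_iff.mp hC.unitary).1 _ _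

lemma prob_nonneg (C : Circuit n) (x : Bits n) (b : Fin 2) : 0 ≤ C.prob x b :=
  Finset.sum_nonneg fun _ _ => by positivity

lemma coeff_eq (C : Circuit n) (T : Finset (Fin n)) :
    C.coeff T = hat (fun x => C.prob x 0 - C.prob x 1) T := rfl

lemma sum_chi {T : Finset (Fin n)} (hT : T.Nonempty) : ∑ x, chi T x = 0 := by
  obtain ⟨i, hi⟩ := hT
  have h := hat_diff (fun _ => 1) i T
  rw [if_pos hi] at h
  simp only [hat, sub_self, zero_mul, Finset.sum_const_zero, zero_div, one_mul] at h
  have h2 : (0 : ℝ) < 2 ^ n := by positivity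
  have h3 : (∑ x, chi T x) / 2 ^ n = 0 := by linarith
  exact (div_eq_zero_iff.mp h3).resolve_right h2.ne'

lemma coeff_eq_two_mul (C : Circuit n) {d : ℕ} (hC : Circ d C.mat) {T : Finset (Fin n)}
    (hT : T.Nonempty) : C.coeff T = 2 * hat (fun x => C.prob x 0) T := by
  have h : ∀ x, (C.prob x 0 - C.prob x 1) * chi T x = 2 * (C.prob x 0 * chi T x) - chi T x := by
    intro x
    have := prob_add_prob C hC x
    have e : C.prob x 1 = 1 - C.prob x 0 := by linarith
    rw [e]; ring
  rw [coeff_eq, hat, hat]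
  simp only [h, Finset.sum_sub_distrib, sum_chi hT, ← Finset.mul_sum]
  ring

lemma sum_coeff_le (C : Circuit n) {d : ℕ} (hC : Circ d C.mat) : ∑ T, C.coeff T ^ 2 ≤ 1 := by
  simp only [coeff_eq]
  rw [parseval, div_le_one (by positivity)]
  refine (Finset.sum_le_card_nsmul _ _ 1 fun x _ => ?_).trans (by simp)
  have := prob_add_prob C hC x
  have := prob_nonneg C x 0
  have := prob_nonneg C x 1
  nlinarith

/-- The Fourier tail of the bias. -/
theorem tail_coeff (C : Circuit n) {d t : ℕ} {u : ℝ} (hC : Circ d C.mat)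
    (hL : Lam (Fin C.N) d t (2 * Real.exp (-(2 * u)))) (hu : t = 0 → u = 0) :
    ∑ T with t ≤ T.card, C.coeff T ^ 2 ≤ 2 * Real.exp (-u) := by
  have h1 : ∑ T with t ≤ T.card, C.coeff T ^ 2 ≤ 1 :=
    (Finset.sum_le_sum_of_subset_of_nonneg (Finset.filter_subset _ _)
      fun _ _ _ => by positivity).trans (sum_coeff_le C hC)
  by_cases h : 1 ≤ 2 * Real.exp (-u)
  · exact h1.trans h
  have ht : 1 ≤ t := by
    by_contra h0
    rw [hu (by omega)] at h
    norm_num at h
  have h2 : ∑ T with t ≤ T.card, C.coeff T ^ 2 =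
      4 * ∑ T with t ≤ T.card, hat (fun x => C.prob x 0) T ^ 2 := by
    rw [Finset.mul_sum]
    refine Finset.sum_congr rfl fun T hT => ?_
    rw [coeff_eq_two_mul C hC (Finset.card_pos.mp (ht.trans (Finset.mem_filter.mp hT).2))]
    ring
  have h3 := tail_prob C hC hL
  have e : Real.exp (-(2 * u)) = Real.exp (-u) ^ 2 := by
    rw [← Real.exp_nat_mul]; congr 1; push_cast; ring
  rw [e] at h3
  rw [h2]
  have h4 := Real.exp_pos (-u)
  set v := Real.exp (-u)
  have h5 : v ^ 3 ≤ (1 / 2) ^ 3 := pow_le_pow_left₀ h4.le (by linarith) 3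
  have h6 : v * v ^ 3 ≤ v * (1 / 2) ^ 3 := by gcongr
  nlinarith

end Vale.Agent.N368.Tail
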