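import Vale.Agent.N368.TailBoot
import Vale.Agent.N368.TailCat
import Vale.Agent.N368.Main

/-!
The explicit Fourier tail bound for circuits and its consequences.
-/

namespace Vale.Agent.N368.Tail

open Finset Vale.Agent.N368 Vale.Agent.N368.Stmt Filter Topology

variable {n : ℕ}

/-- The localization scale. -/
noncomputable def scale (L : ℝ) (d : ℕ) : ℝ := Real.exp (300 * gm L (Real.log L) d)

theorem lam_circuit (C : Circuit n) {L : ℝ} (hL : 3 ≤ L) (hN : (C.N : ℝ) ≤ Real.exp L) (d t : ℕ) :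
    Lam (Fin C.N) d t (2 * Real.exp (-(2 * (t / scale L d)))) := by
  have h := lam_explicit (ι := Fin C.N) hL (by rwa [Fintype.card_fin]) d t
  rwa [mul_div_assoc] at h

theorem tail_bound (C : Circuit n) {L : ℝ} {d : ℕ} (hL : 3 ≤ L) (hd : C.entanglingDepth ≤ d)
    (hN : (C.N : ℝ) ≤ Real.exp L) (t : ℕ) :
    ∑ T with t ≤ T.card, C.coeff T ^ 2 ≤ 2 * Real.exp (-(t / scale L d)) :=
  tail_coeff C ((circ_mat C).mono hd) (lam_circuit C hL hN d t) (fun h => by simp [h])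

theorem sens_bound (C : Circuit n) {L : ℝ} {d : ℕ} (hL : 3 ≤ L) (hd : C.entanglingDepth ≤ d)
    (hN : (C.N : ℝ) ≤ Real.exp L) (g : Bits n → Fin 2) {ε : ℝ} (hε : 0 < ε)
    (hg : ∀ x, 1 / 2 + ε ≤ C.prob x (g x)) : sens g ≤ scale L d / ε ^ 2 := by
  have hK : 0 < scale L d := Real.exp_pos _
  have h := sens_le (fun x => C.prob x 0 - C.prob x 1) g hK hε (tail_bound C hL hd hN)
    (fun x hx => by
      have h1 := hg x
      have h2 := prob_add_prob C (circ_mat C) x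
      rw [hx] at h1
      linarith)
    (fun x hx => by
      have h1 := hg x
      have h2 := prob_add_prob C (circ_mat C) x
      rw [hx] at h1
      linarith)
  refine le_trans h ?_
  have : 0 < ε ^ 2 := by positivity
  gcongr
  linarith

theorem cat_bound (C : Circuit n) {L : ℝ} {d : ℕ} (hL : 3 ≤ L) (hd : C.entanglingDepth ≤ d)
    (hN : (C.N : ℝ) ≤ Real.exp L) (x : Bits n) (S : Finset (Fin C.N)) :
    (∑ y with ∀ i ∈ S, y i = 0, ‖C.mat y (C.pad x)‖ ^ 2) *
      ∑ y with ∀ i ∈ S, y i = 1, ‖C.mat y (C.pad x)‖ ^ 2 ≤ Real.exp (-(S.card / scale L d)) := by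
  convert cat_exp C.mat ((circ_mat C).mono hd) S (lam_circuit C hL hN d S.card)
    (fun h => by simp [h]) (C.pad x)

/-- A small scale gives the stretched exponential correlation bound. -/
theorem corr_of_scale (δ : ℝ) :
    ∃ n0 : ℕ, ∀ n ≥ n0, ∀ (C : Circuit n) (L : ℝ) (d : ℕ), 3 ≤ L → C.entanglingDepth ≤ d →
      (C.N : ℝ) ≤ Real.exp L → 300 * gm L (Real.log L) d ≤ min δ (1 / 2) * Real.log n →
      |C.correlation| ≤ Real.exp (-(n : ℝ) ^ (1 - δ)) := by
  refine ⟨4, fun n hn C L d hL hd hN hK => ?_⟩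
  have hn4 : (4 : ℝ) ≤ n := by exact_mod_cast hn
  have hn0 : (0 : ℝ) < n := by linarith
  set η := min δ (1 / 2) with hη
  have hη1 : η ≤ δ := min_le_left _ _
  have hη2 : η ≤ 1 / 2 := min_le_right _ _
  have h1 := Bridge.correlation_le (by omega) C ((circ_mat C).mono hd) (lam_circuit C hL hN d n)
  have hK2 : scale L d ≤ (n : ℝ) ^ η := by
    rw [Real.rpow_def_of_pos hn0, mul_comm]
    exact Real.exp_le_exp.mpr hK
  have hK0 : 0 < scale L d := Real.exp_pos _
  set u := (n : ℝ) ^ (1 - η) with hu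
  have hu1 : u ≤ n / scale L d := by
    rw [hu, Real.rpow_sub hn0, Real.rpow_one]
    gcongr
  have hu2 : 2 ≤ u := by
    calc (2 : ℝ) = 4 ^ (1 / 2 : ℝ) := by
          rw [show (4 : ℝ) = 2 ^ (2 : ℝ) by norm_num, ← Real.rpow_mul (by norm_num)]; norm_num
      _ ≤ (n : ℝ) ^ (1 / 2 : ℝ) := by gcongr
      _ ≤ u := Real.rpow_le_rpow_of_exponent_le (by linarith) (by linarith)
  have hu3 : (n : ℝ) ^ (1 - δ) ≤ u := Real.rpow_le_rpow_of_exponent_le (by linarith) (by linarith)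
  have h4 : (4 : ℝ) ≤ Real.exp u := by
    have h5 := Real.exp_one_gt_d9
    have h6 : Real.exp 2 = Real.exp 1 * Real.exp 1 := by rw [← Real.exp_add]; norm_num
    have h7 : Real.exp 2 ≤ Real.exp u := Real.exp_le_exp.mpr hu2
    nlinarith
  refine h1.trans ?_
  calc 2 * (2 * Real.exp (-(2 * (n / scale L d)))) ≤ 4 * Real.exp (-(2 * u)) := by
        rw [← mul_assoc]; norm_num; linarith
    _ ≤ Real.exp u * Real.exp (-(2 * u)) := by gcongr
    _ = Real.exp (-u) := by rw [← Real.exp_add]; congr 1; ring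
    _ ≤ _ := Real.exp_le_exp.mpr (by linarith)

theorem tendsto_log_nat : Tendsto (fun n : ℕ => Real.log n) atTop atTop :=
  Real.tendsto_log_atTop.comp tendsto_natCast_atTop_atTop

theorem half_pow_le_one (d : ℕ) : (1 / 2 : ℝ) ^ d ≤ 1 := pow_le_one₀ (by norm_num) (by norm_num)

/-- The scale for quasi-polynomially many qubits. -/
theorem scale_quasi (d : ℕ) {γ η : ℝ} (hγ1 : 1 ≤ γ) (hγ : γ * (1 - (1 / 2 : ℝ) ^ d) < 1)
    (hη : 0 < η) : ∀ᶠ u : ℝ in atTop, 300 * gm (u ^ γ) (Real.log (u ^ γ)) d ≤ η * u := by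
  set σ := γ * (1 - (1 / 2 : ℝ) ^ d) with hσ
  have h1 := (isLittleO_log_rpow_atTop (show 0 < 1 - σ by linarith)).bound
    (show 0 < η / (300 * γ) by positivity)
  filter_upwards [h1, eventually_ge_atTop 3] with u hu hu3
  have hu0 : 0 < u := by linarith
  have hlog := one_le_log hu3
  rw [Real.norm_of_nonneg (by linarith), Real.norm_of_nonneg (by positivity)] at hu
  unfold gm
  rw [← Real.rpow_mul hu0.le, ← hσ, Real.log_rpow hu0]
  have h2 : (γ * Real.log u) ^ ((1 / 2 : ℝ) ^ d) ≤ γ * Real.log u := by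
    calc _ ≤ (γ * Real.log u) ^ (1 : ℝ) :=
          Real.rpow_le_rpow_of_exponent_le (by nlinarith) (half_pow_le_one d)
      _ = _ := Real.rpow_one _
  calc 300 * (u ^ σ * (γ * Real.log u) ^ ((1 / 2 : ℝ) ^ d))
      ≤ 300 * (u ^ σ * (γ * (η / (300 * γ) * u ^ (1 - σ)))) := by
        gcongr
        exact h2.trans (by gcongr)
    _ = η * (u ^ σ * u ^ (1 - σ)) := by field_simp
    _ = η * u := by rw [← Real.rpow_add hu0]; simp

/-- Parity needs superpolynomially many qubits at every fixed entangling depth. -/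
theorem corr_quasi (d : ℕ) (γ δ : ℝ) (hγ : γ * (1 - (1 / 2 : ℝ) ^ d) < 1) (hδ : 0 < δ) :
    ∃ n0 : ℕ, ∀ n ≥ n0, ∀ C : Circuit n, C.entanglingDepth ≤ d →
      (C.N : ℝ) ≤ Real.exp (Real.log n ^ γ) →
      |C.correlation| ≤ Real.exp (-(n : ℝ) ^ (1 - δ)) := by
  obtain ⟨n1, h1⟩ := corr_of_scale δ
  have hγ' : max γ 1 * (1 - (1 / 2 : ℝ) ^ d) < 1 := by
    rcases le_total γ 1 with h | h
    · rw [max_eq_right h]
      have : (0 : ℝ) < (1 / 2 : ℝ) ^ d := by positivity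
      linarith
    · rwa [max_eq_left h]
  have h2 := tendsto_log_nat.eventually ((scale_quasi d (le_max_right γ 1) hγ'
    (show 0 < min δ (1 / 2) by positivity)).and (eventually_ge_atTop 3))
  obtain ⟨n2, h2⟩ := eventually_atTop.mp h2
  refine ⟨n1 + n2, fun n hn C hd hN => ?_⟩
  obtain ⟨h3, h4⟩ := h2 n (by omega)
  refine h1 n (by omega) C _ d ?_ hd (hN.trans (Real.exp_le_exp.mpr ?_)) h3
  · calc (3 : ℝ) ≤ Real.log n ^ (1 : ℝ) := by rwa [Real.rpow_one]
      _ ≤ _ := Real.rpow_le_rpow_of_exponent_le (by linarith) (le_max_right _ _)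
  · exact Real.rpow_le_rpow_of_exponent_le (by linarith) (le_max_left _ _)

/-- The scale for polynomially many qubits and slowly growing depth. -/
theorem scale_poly {E η u : ℝ} (hE : 1 ≤ E) (hη : 0 < η) (hu : 3 ≤ u) (d : ℕ)
    (hd : 1200 * E / η * 2 ^ d ≤ Real.log u) :
    300 * gm (E * u) (Real.log (E * u)) d ≤ η * u := by
  have hu0 : 0 < u := by linarith
  set L := E * u with hL
  have huL : u ≤ L := by rw [hL]; nlinarith
  have hL0 : 0 < L := by linarith
  set θ := (1 / 2 : ℝ) ^ d with hθ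
  have hθ0 : 0 < θ := by positivity
  have hθ1 : θ ≤ 1 := half_pow_le_one d
  have hθd : θ * 2 ^ d = 1 := by rw [hθ, ← mul_pow]; norm_num
  have hlogL := one_le_log (hu.trans huL)
  have h1 : Real.log L ≤ 2 * L ^ (1 / 2 : ℝ) := by
    have := Real.log_le_rpow_div hL0.le (show (0 : ℝ) < 1 / 2 by norm_num)
    linarith
  have h2 : Real.log L ^ θ ≤ 2 * L ^ (θ / 2) := by
    calc Real.log L ^ θ ≤ (2 * L ^ (1 / 2 : ℝ)) ^ θ := by gcongr
      _ = 2 ^ θ * L ^ (θ / 2) := by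
          rw [Real.mul_rpow (by norm_num) (by positivity), ← Real.rpow_mul hL0.le]
          congr 2; ring
      _ ≤ 2 ^ (1 : ℝ) * L ^ (θ / 2) := by gcongr; norm_num
      _ = _ := by rw [Real.rpow_one]
  have h3 : 600 * E / η ≤ L ^ (θ / 2) := by
    have h4 : 600 * E / η ≤ Real.log L * (θ / 2) := by
      have h5 : Real.log u ≤ Real.log L := Real.log_le_log hu0 huL
      have h6 : 1200 * E / η * 2 ^ d * (θ / 2) ≤ Real.log L * (θ / 2) := by
        gcongr; exact hd.trans h5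
      calc 600 * E / η = 600 * E / η * (θ * 2 ^ d) := by rw [hθd, mul_one]
        _ = 1200 * E / η * 2 ^ d * (θ / 2) := by ring
        _ ≤ _ := h6
    rw [Real.rpow_def_of_pos hL0]
    linarith [Real.add_one_le_exp (Real.log L * (θ / 2))]
  have h7 : L ^ (1 - θ) * L ^ (θ / 2) * L ^ (θ / 2) = L := by
    rw [← Real.rpow_add hL0, ← Real.rpow_add hL0]
    rw [show 1 - θ + θ / 2 + θ / 2 = 1 by ring, Real.rpow_one]
  have h8 : L ^ (1 - θ) * L ^ (θ / 2) * (600 * E / η) ≤ L := by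
    calc _ ≤ L ^ (1 - θ) * L ^ (θ / 2) * L ^ (θ / 2) := by gcongr
      _ = L := h7
  unfold gm
  rw [← hθ]
  have h9 : 600 * (L ^ (1 - θ) * L ^ (θ / 2)) ≤ η * u := by
    have h10 : E * (600 * (L ^ (1 - θ) * L ^ (θ / 2))) ≤ E * (η * u) := by
      calc _ = η * (L ^ (1 - θ) * L ^ (θ / 2) * (600 * E / η)) := by field_simp
        _ ≤ η * L := by gcongr
        _ = _ := by rw [hL]; ring
    exact le_of_mul_le_mul_left h10 (by linarith)
  calc 300 * (L ^ (1 - θ) * Real.log L ^ θ) ≤ 300 * (L ^ (1 - θ) * (2 * L ^ (θ / 2))) := by gcongr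
    _ = 600 * (L ^ (1 - θ) * L ^ (θ / 2)) := by ring
    _ ≤ _ := h9

theorem pow_le_exp {N n e : ℕ} (hn : 3 ≤ Real.log n) (hN : N ≤ n ^ e) :
    (N : ℝ) ≤ Real.exp (((e : ℝ) + 1) * Real.log n) := by
  have hn0 : (0 : ℝ) < n := by
    rcases Nat.eq_zero_or_pos n with h | h
    · subst h; norm_num at hn
    · exact_mod_cast h
  calc (N : ℝ) ≤ (n : ℝ) ^ e := by exact_mod_cast hN
    _ = Real.exp (e * Real.log n) := by rw [Real.exp_nat_mul, Real.exp_log hn0]
    _ ≤ _ := Real.exp_le_exp.mpr (by linarith)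

/-- Parity on polynomially many qubits needs entangling depth `log log log n - O(1)`. -/
theorem corr_depth (e : ℕ) (δ : ℝ) (hδ : 0 < δ) :
    ∃ (b : ℝ) (n0 : ℕ), ∀ n ≥ n0, ∀ C : Circuit n, C.N ≤ n ^ e →
      b * 2 ^ C.entanglingDepth ≤ Real.log (Real.log n) →
      |C.correlation| ≤ Real.exp (-(n : ℝ) ^ (1 - δ)) := by
  obtain ⟨n1, h1⟩ := corr_of_scale δ
  obtain ⟨n2, h2⟩ := eventually_atTop.mp (tendsto_log_nat.eventually (eventually_ge_atTop 3))
  have he : (0 : ℝ) ≤ e := Nat.cast_nonneg e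
  refine ⟨1200 * ((e : ℝ) + 1) / min δ (1 / 2), n1 + n2, fun n hn C hN hd => ?_⟩
  have h3 := h2 n (by omega)
  exact h1 n (by omega) C (((e : ℝ) + 1) * Real.log n) _ (by nlinarith) le_rfl (pow_le_exp h3 hN)
    (scale_poly (by linarith) (by positivity) h3 _ hd)

/-- Along a QAC0 family the average sensitivity of a computed function is `n^(o(1))`. -/
theorem family_sens {C : ∀ n, Circuit n} (hC : IsQAC0 C) {η : ℝ} (hη : 0 < η) :
    ∃ n0 : ℕ, ∀ n ≥ n0, ∀ (g : Bits n → Fin 2) (ε : ℝ), 0 < ε →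
      (∀ x, 1 / 2 + ε ≤ (C n).prob x (g x)) → sens g ≤ (n : ℝ) ^ η / ε ^ 2 := by
  obtain ⟨⟨d, hd⟩, p, hp⟩ := hC
  obtain ⟨e, n1, he⟩ := Main.poly_le_pow p
  obtain ⟨n2, h2⟩ := eventually_atTop.mp (tendsto_log_nat.eventually ((eventually_ge_atTop 3).and
    (Real.tendsto_log_atTop.eventually (eventually_ge_atTop (1200 * ((e : ℝ) + 1) / η * 2 ^ d)))))
  have he0 : (0 : ℝ) ≤ e := Nat.cast_nonneg e
  refine ⟨n1 + n2 + 1, fun n hn g ε hε hg => ?_⟩
  obtain ⟨h3, h4⟩ := h2 n (by omega)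
  have hn0 : (0 : ℝ) < n := by exact_mod_cast (show 0 < n by omega)
  refine (sens_bound (C n) (L := ((e : ℝ) + 1) * Real.log n) (by nlinarith)
    ((entanglingDepth_le _).trans (hd n)) (pow_le_exp h3 ((hp n).trans (he n (by omega))))
    g hε hg).trans ?_
  gcongr
  rw [Real.rpow_def_of_pos hn0, mul_comm (Real.log n)]
  exact Real.exp_le_exp.mpr (scale_poly (by linarith) hη h3 d h4)

end Vale.Agent.N368.Tail
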