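import Vale.Agent.N368.TailMain

/-!
The average sensitivity of Majority is of order `√n`, so Majority is not in QAC0.
-/

namespace Vale.Agent.N368.Tail

open Finset Vale.Agent.N368 Vale.Agent.N368.Stmt Vale.Agent.N368.Parity Filter

theorem centralBinom_sq (m : ℕ) : 16 ^ (m + 1) ≤ 4 * (m + 1) * Nat.centralBinom (m + 1) ^ 2 := by
  induction m with
  | zero => decide
  | succ m ih =>
    have h := Nat.succ_mul_centralBinom_succ (m + 1)
    set A := Nat.centralBinom (m + 1)
    set B := Nat.centralBinom (m + 1 + 1)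
    have h1 : (m + 2) * 16 ^ (m + 1 + 1) ≤ (m + 2) * (4 * (m + 1 + 1) * B ^ 2) := by
      calc (m + 2) * 16 ^ (m + 1 + 1) = 16 * (m + 2) * 16 ^ (m + 1) := by ring
        _ ≤ 16 * (m + 2) * (4 * (m + 1) * A ^ 2) := Nat.mul_le_mul_left _ ih
        _ = (4 * ((m + 1) * (m + 2))) * (16 * A ^ 2) := by ring
        _ ≤ (2 * m + 3) ^ 2 * (16 * A ^ 2) := Nat.mul_le_mul_right _ (by nlinarith)
        _ = 4 * (2 * (2 * (m + 1) + 1) * A) ^ 2 := by ring
        _ = 4 * ((m + 1 + 1) * B) ^ 2 := by rw [h]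
        _ = _ := by ring
    exact Nat.le_of_mul_le_mul_left h1 (by positivity)

variable {n : ℕ}

/-- Majority. -/
def maj (x : Bits n) : Fin 2 := if n < 2 * (univ.filter fun i => x i = 1).card then 1 else 0

theorem filter_ind (T : Finset (Fin n)) : (univ.filter fun i => ind T i = 1) = T := by
  ext i
  simp [ind]

theorem ind_inj : Function.Injective (ind : Finset (Fin n) → Bits n) := fun T T' h => by
  rw [← filter_ind T, h, filter_ind]

theorem update_ind (T : Finset (Fin n)) {i : Fin n} (hi : i ∉ T) :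
    Function.update (ind T) i (ind T i + 1) = ind (insert i T) := by
  funext j
  by_cases h : j = i
  · subst h
    simp [ind, hi]
  · simp [ind, h]

theorem sens_maj : ((n.choose (n / 2) * (n - n / 2) : ℕ) : ℝ) / 2 ^ n ≤ sens (maj (n := n)) := by
  unfold sens
  gcongr
  set F : Bits n → ℕ := fun x =>
    (univ.filter fun i => maj (Function.update x i (x i + 1)) ≠ maj x).card with hF
  have h1 : ∀ T ∈ powersetCard (n / 2) (univ : Finset (Fin n)), n - n / 2 ≤ F (ind T) := by
    intro T hT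
    have hc : T.card = n / 2 := (Finset.mem_powersetCard.mp hT).2
    have : n - n / 2 = Tᶜ.card := by rw [Finset.card_compl, Fintype.card_fin, hc]
    rw [this]
    refine Finset.card_le_card fun i hi => Finset.mem_filter.mpr ⟨Finset.mem_univ _, ?_⟩
    have hi' : i ∉ T := Finset.mem_compl.mp hi
    rw [update_ind T hi', maj, maj, filter_ind, filter_ind, Finset.card_insert_of_notMem hi', hc,
      if_pos (by omega), if_neg (by omega)]
    decide
  have h2 : n.choose (n / 2) * (n - n / 2) ≤ ∑ x, F x := by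
    calc n.choose (n / 2) * (n - n / 2)
        = (powersetCard (n / 2) (univ : Finset (Fin n))).card • (n - n / 2) := by
          rw [Finset.card_powersetCard, Finset.card_univ, Fintype.card_fin, smul_eq_mul]
      _ ≤ ∑ T ∈ powersetCard (n / 2) (univ : Finset (Fin n)), F (ind T) :=
          Finset.card_nsmul_le_sum _ _ _ h1
      _ = ∑ x ∈ (powersetCard (n / 2) (univ : Finset (Fin n))).image ind, F x :=
          (Finset.sum_image fun a _ b _ h => ind_inj h).symm
      _ ≤ ∑ x, F x := Finset.sum_le_sum_of_subset (Finset.subset_univ _)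
  exact_mod_cast h2

/-- The square of the average sensitivity of Majority is at least `n / 64`. -/
theorem sens_maj_sq (hn : 2 ≤ n) : (n : ℝ) / 64 ≤ sens (maj (n := n)) ^ 2 := by
  obtain ⟨k, hk⟩ : ∃ k, n / 2 = k + 1 := ⟨n / 2 - 1, by omega⟩
  have h1 := centralBinom_sq k
  have h2 : Nat.centralBinom (k + 1) ≤ n.choose (n / 2) := by
    rw [Nat.centralBinom, hk]
    exact Nat.choose_le_choose _ (by omega)
  have h3 : n * (2 ^ n) ^ 2 ≤ 64 * (n.choose (n / 2) * (n - n / 2)) ^ 2 := by
    have a1 : (2 ^ n) ^ 2 ≤ 4 * 16 ^ (k + 1) := by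
      calc (2 ^ n) ^ 2 = 2 ^ (n * 2) := by rw [← pow_mul]
        _ ≤ 2 ^ (2 + 4 * (k + 1)) := Nat.pow_le_pow_right (by norm_num) (by omega)
        _ = 4 * 16 ^ (k + 1) := by rw [pow_add, pow_mul]; norm_num
    calc n * (2 ^ n) ^ 2 ≤ (4 * (k + 1)) * (4 * (4 * (k + 1) * Nat.centralBinom (k + 1) ^ 2)) :=
          Nat.mul_le_mul (by omega) (a1.trans (Nat.mul_le_mul_left _ h1))
      _ = 64 * (Nat.centralBinom (k + 1) * (k + 1)) ^ 2 := by ring
      _ ≤ 64 * (n.choose (n / 2) * (n - n / 2)) ^ 2 := by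
          gcongr
          omega
  refine le_trans ?_ (pow_le_pow_left₀ (by positivity) sens_maj 2)
  rw [div_pow, div_le_div_iff₀ (by norm_num) (by positivity), mul_comm _ (64 : ℝ)]
  exact_mod_cast h3

/-- Majority is not computed with a fixed worst-case advantage by a QAC0 family. -/
theorem not_maj (C : ∀ n, Circuit n) (hC : IsQAC0 C) (ε : ℝ) (hε : 0 < ε) :
    ∃ n0 : ℕ, ∀ n ≥ n0, ¬ ∀ x : Bits n, 1 / 2 + ε ≤ (C n).prob x (maj x) := by
  obtain ⟨n1, h1⟩ := family_sens hC (show (0 : ℝ) < 1 / 4 by norm_num)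
  have ht : Tendsto (fun n : ℕ => (n : ℝ) ^ (1 / 2 : ℝ)) atTop atTop :=
    (tendsto_rpow_atTop (by norm_num)).comp tendsto_natCast_atTop_atTop
  obtain ⟨n2, h2⟩ := eventually_atTop.mp (ht.eventually (eventually_gt_atTop (64 / ε ^ 4)))
  refine ⟨n1 + n2 + 2, fun n hn h => ?_⟩
  have h3 := h1 n (by omega) maj ε hε h
  have h4 := sens_maj_sq (n := n) (by omega)
  have h5 := h2 n (by omega)
  have hn0 : (0 : ℝ) < n := by exact_mod_cast (show 0 < n by omega)
  have h6 : 0 ≤ sens (maj (n := n)) := le_trans (by positivity) sens_maj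
  have h7 := h4.trans (pow_le_pow_left₀ h6 h3 2)
  set r := (n : ℝ) ^ (1 / 2 : ℝ) with hr
  have hr0 : 0 < r := by positivity
  have e1 : ((n : ℝ) ^ (1 / 4 : ℝ)) ^ 2 = r := by
    rw [← Real.rpow_natCast, ← Real.rpow_mul hn0.le]; norm_num [hr]
  have e2 : (n : ℝ) = r * r := by
    rw [hr, ← Real.rpow_add hn0]; norm_num
  rw [div_pow, e1, div_le_div_iff₀ (by norm_num) (by positivity), e2] at h7
  rw [div_lt_iff₀ (by positivity)] at h5
  nlinarith

end Vale.Agent.N368.Tail
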