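import Vale.Agent.N368.StepB

/-!
The localization bound at depth zero: `λ_0(t) ≤ (3/4)^t`.
-/

set_option linter.unusedSectionVars false

namespace Vale.Agent.N368.Tail

open Matrix Finset Vale.Agent.N368
open scoped Matrix.Norms.L2Operator

variable {ι : Type} [Fintype ι] [DecidableEq ι]

/-- A tensor product of one-qubit contractions is a contraction. -/
theorem norm_tens_le_one (A : ι → M2)
    (h : ∀ i, ∃ W ∈ Matrix.unitaryGroup (Fin 2) ℂ, ∃ f : Fin 2 → ℂ, (∀ a, ‖f a‖ ≤ 1) ∧
      A i * star (A i) = W * diagonal f * star W) : ‖tens A‖ ≤ 1 := by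
  choose W hW f hf hA using h
  have hloc : IsLoc (tens W) := ⟨W, hW, rfl⟩
  have e : tens A * star (tens A) =
      tens W * (diagonal fun x : ι → Fin 2 => ∏ i, f i (x i)) * star (tens W) := by
    rw [← tens_diagonal, tens_star, tens_star, tens_mul, tens_mul, tens_mul]
    congr 1
    funext i
    exact hA i
  have h1 : ‖tens A * star (tens A)‖ ≤ 1 := by
    rw [e]
    refine (norm_mul3_le _ _ _ (norm_unitary_le hloc.unitary)
      (norm_unitary_le hloc.star.unitary)).trans ?_
    refine norm_diagonal_le _ zero_le_one fun x => ?_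
    rw [norm_prod]
    exact Finset.prod_le_one (fun i _ => norm_nonneg _) fun i _ => hf i _
  rw [CStarRing.norm_self_mul_star] at h1
  nlinarith [norm_nonneg (tens A)]

/-- The one-qubit weight. -/
noncomputable def dd : M2 := diagonal fun a => if a = 1 then (4 / 3 : ℂ) else 1

theorem site_both (u : M2) (hu : u ∈ Matrix.unitaryGroup (Fin 2) ℂ) :
    ∃ f : Fin 2 → ℂ, (∀ a, ‖f a‖ ≤ 1) ∧
      e0 * (u * e0 * star u) * dd * star (e0 * (u * e0 * star u) * dd) = diagonal f := by
  have h0 := congrFun (congrFun (Unitary.mem_iff.mp hu).1 0) 0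
  rw [Matrix.mul_apply, Fin.sum_univ_two, Matrix.one_apply_eq, Matrix.star_apply,
    Matrix.star_apply, Complex.star_def, Complex.conj_mul', Complex.conj_mul'] at h0
  have h1 : ‖u 0 0‖ ^ 2 + ‖u 1 0‖ ^ 2 = 1 := by exact_mod_cast h0
  refine ⟨fun a => if a = 0 then
    ((‖u 0 0‖ ^ 2 * (‖u 0 0‖ ^ 2 + 16 / 9 * ‖u 1 0‖ ^ 2) : ℝ) : ℂ) else 0, fun a => ?_, ?_⟩
  · dsimp only
    split_ifs
    · rw [Complex.norm_real, Real.norm_eq_abs, abs_of_nonneg (by positivity)]
      have a1 : 0 ≤ ‖u 0 0‖ ^ 2 := by positivity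
      have a2 : 0 ≤ ‖u 1 0‖ ^ 2 := by positivity
      nlinarith
    · simp
  · have c0 := Complex.mul_conj' (u 0 0)
    have c1 := Complex.mul_conj' (u 1 0)
    ext a b
    fin_cases a <;> fin_cases b <;>
      simp [Matrix.mul_apply, Fin.sum_univ_two, e0, dd, Matrix.star_apply, Matrix.diagonal_apply]
    rw [← c0, ← c1]
    simp only [map_ofNat]
    ring

theorem site_left : e0 * (1 : M2) * dd * star (e0 * (1 : M2) * dd) = e0 := by
  ext a b
  fin_cases a <;> fin_cases b <;>
    simp [Matrix.mul_apply, e0, dd, Matrix.star_apply, Matrix.diagonal_apply]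

theorem e0_mul_e0 : e0 * e0 = e0 := by
  ext a b
  fin_cases a <;> fin_cases b <;>
    simp [Matrix.mul_apply, e0, Matrix.diagonal_apply]

theorem star_e0 : star e0 = e0 := by
  ext a b
  fin_cases a <;> fin_cases b <;> simp [e0, Matrix.star_apply]

theorem tens_dd (S : Finset ι) : (tens fun i => if i ∈ S then dd else 1) =
    diagonal fun x : ι → Fin 2 => (4 / 3 : ℂ) ^ hw S x := by
  have h : (fun i => if i ∈ S then dd else (1 : M2)) = fun i =>
      diagonal (fun a : Fin 2 => if i ∈ S ∧ a = 1 then (4 / 3 : ℂ) else 1) := by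
    funext i
    split_ifs with hi
    · simp [dd, hi]
    · simp [hi]
  rw [h, tens_diagonal]
  congr 1
  funext x
  rw [Finset.prod_ite, Finset.prod_const, Finset.prod_const_one, mul_one, hw]
  congr 2
  ext i
  simp

/-- The localization bound for products of one-qubit unitaries. -/
theorem lam_zero (t : ℕ) : Lam ι 0 t ((3 / 4) ^ t) := by
  rintro U ⟨M, hM, rfl⟩ S S'
  set m : ι → M2 := fun i => if i ∈ S' then M i * e0 * star (M i) else 1 with hm
  have e : tens M * PP S' * star (tens M) = tens m := by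
    rw [PP_eq_tens, tens_star, tens_mul, tens_mul]
    congr 1
    funext i
    simp only [hm]
    split_ifs with hi
    · rfl
    · rw [mul_one]; exact (Unitary.mem_iff.mp (hM i)).2
  set E : Op ι := diagonal fun y => if t ≤ hw S y then (3 / 4 : ℂ) ^ hw S y else 0 with hE
  have eQ : QQ S t = (tens fun i => if i ∈ S then dd else 1) * E := by
    rw [tens_dd, hE, diagonal_mul_diagonal, QQ]
    congr 1
    funext y
    split_ifs
    · rw [← mul_pow]; norm_num
    · simp
  have e2 : PP S * tens M * PP S' * star (tens M) * QQ S t =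
      (tens fun i => if i ∈ S then e0 * m i * dd else m i) * E := by
    rw [mul_assoc (PP S), mul_assoc (PP S), e, eQ, ← mul_assoc, PP_eq_tens, tens_mul, tens_mul]
    congr 2
    funext i
    split_ifs <;> simp
  have hEn : ‖E‖ ≤ (3 / 4) ^ t := norm_diagonal_le _ (by positivity) fun y => by
    split_ifs with h
    · rw [norm_pow]
      have : ‖(3 / 4 : ℂ)‖ = 3 / 4 := by simp
      rw [this]
      exact pow_le_pow_of_le_one (by norm_num) (by norm_num) h
    · rw [norm_zero]; positivity
  have hA : ‖(tens fun i => if i ∈ S then e0 * m i * dd else m i : Op ι)‖ ≤ 1 := by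
    refine norm_tens_le_one _ fun i => ?_
    have he0 : ∀ a : Fin 2, ‖(if a = 0 then 1 else 0 : ℂ)‖ ≤ 1 := fun a => by
      split_ifs <;> simp
    by_cases hi : i ∈ S <;> by_cases hi' : i ∈ S' <;> simp only [hm, hi, hi', if_true, if_false]
    · obtain ⟨f, hf, h⟩ := site_both (M i) (hM i)
      exact ⟨1, one_mem _, f, hf, by rw [h, star_one, one_mul, mul_one]⟩
    · exact ⟨1, one_mem _, _, he0, by rw [site_left, star_one, one_mul, mul_one]; rfl⟩
    · refine ⟨M i, hM i, _, he0, ?_⟩
      have hu := (Unitary.mem_iff.mp (hM i)).1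
      rw [star_mul, star_mul, star_star, star_e0]
      calc M i * e0 * star (M i) * (M i * (e0 * star (M i)))
          = M i * (e0 * (star (M i) * M i) * e0) * star (M i) := by simp only [mul_assoc]
        _ = _ := by rw [hu, mul_one, e0_mul_e0]; rfl
    · exact ⟨1, one_mem _, fun _ => 1, fun _ => by simp, by simp⟩
  rw [e2]
  calc _ ≤ _ := norm_mul_le _ _
    _ ≤ 1 * (3 / 4) ^ t := by gcongr
    _ = _ := one_mul _

end Vale.Agent.N368.Tail
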